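import Vale.Agent.Lib.P248.Recursion

open MeasureTheory Set Function
open scoped ENNReal

set_option linter.unusedSectionVars false

noncomputable section
namespace Vale.Agent.Lib.P248

variable {J I : Type*} [Fintype J] [Fintype I] [DecidableEq J] [DecidableEq I]
variable {m : I → ℕ} {S : Finset (Ix J I)} {K : Set (Ix J I → ℝ)}

/-- Weights of the coordinates: the order of the symmetry group is the product of the weights. -/
def g0 (m : I → ℕ) (c : Ix J I) : ℝ :=
  match c with
  | Sum.inl _ => 2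
  | Sum.inr (_, false) => 2
  | Sum.inr (i, true) => m i

/-- Order of the symmetry group at the active set `S`. -/
def GG (m : I → ℕ) (S : Finset (Ix J I)) : ℝ := ∏ c ∈ S, g0 m c

/-- The target bound at the active set `S`. -/
def TT (m : I → ℕ) (S : Finset (Ix J I)) : ℝ :=
  4 ^ S.card / ((S.card.factorial : ℝ) * (GG m S) ^ 2)

/-- Volume product of the parts in the cone. -/
def QQ (m : I → ℕ) (S : Finset (Ix J I)) (K : Set (Ix J I → ℝ)) : ℝ :=
  (vol S (K ∩ Cone m S)).toReal * (vol S (Polar S K ∩ Cone m S)).toReal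

/-- Facet measure in real form. -/
def phi (m : I → ℕ) (S : Finset (Ix J I)) (L : Set (Ix J I → ℝ)) (c : Ix J I) : ℝ :=
  (vol (S.erase (rm S c)) (Bas m S L (rm S c))).toReal

lemma phi_nonneg (m : I → ℕ) (S : Finset (Ix J I)) (L : Set (Ix J I → ℝ)) (c : Ix J I) :
    0 ≤ phi m S L c := ENNReal.toReal_nonneg

lemma phi_A (m : I → ℕ) {S : Finset (Ix J I)} (L : Set (Ix J I → ℝ)) {i : I} (h : B i ∈ S) :
    phi m S L (A i) = phi m S L (B i) := by
  unfold phi
  rw [rm_A h, rm_plain (plain_B S i)]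

lemma g0_pos (hm : ∀ i, 3 ≤ m i) (c : Ix J I) : 0 < g0 m c := by
  rcases c with j | ⟨i, b⟩
  · simp [g0]
  · cases b
    · simp [g0]
    · have : 0 < m i := by linarith [hm i]
      simpa [g0] using this

lemma GG_pos (hm : ∀ i, 3 ≤ m i) (S : Finset (Ix J I)) : 0 < GG m S :=
  Finset.prod_pos fun c _ => g0_pos hm c

lemma TT_pos (hm : ∀ i, 3 ≤ m i) (S : Finset (Ix J I)) : 0 < TT m S := by
  have := GG_pos hm S
  unfold TT
  positivity

lemma GG_erase {r : Ix J I} (hr : r ∈ S) : g0 m r * GG m (S.erase r) = GG m S :=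
  Finset.mul_prod_erase S (g0 m) hr

lemma TT_erase (hm : ∀ i, 3 ≤ m i) {r : Ix J I} (hr : r ∈ S) {k : ℕ} (hk : S.card = k + 1) :
    TT m (S.erase r) = (4 ^ k / (k.factorial : ℝ)) * (g0 m r) ^ 2 / (GG m S) ^ 2 := by
  have h1 : (S.erase r).card = k := by rw [Finset.card_erase_of_mem hr, hk]; rfl
  have h2 := GG_erase (m := m) hr
  have h3 := g0_pos hm r
  have h4 := GG_pos hm (S.erase r)
  have h5 : (k.factorial : ℝ) ≠ 0 := by positivity
  unfold TT
  rw [h1, ← h2]
  field_simp

lemma TT_succ {k : ℕ} (hk : S.card = k + 1) (hG : GG m S ≠ 0) :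
    TT m S = (4 * (4 ^ k / (k.factorial : ℝ)) / (GG m S) ^ 2) / ((k:ℝ) + 1) := by
  unfold TT
  rw [hk, Nat.factorial_succ]
  have h5 : (k.factorial : ℝ) ≠ 0 := by positivity
  have h6 : ((k:ℝ) + 1) ≠ 0 := by positivity
  push_cast
  field_simp
  ring

/-- real form of the pyramid inequality -/
lemma pyramid_real (hm : ∀ i, 3 ≤ m i) (hcl : Closed S) {z : Ix J I → ℝ} {L : Set (Ix J I → ℝ)}
    (hL : MeasurableSet L) (hconv : Convex ℝ L) (hinv : ∀ c ∈ S, ∀ y ∈ L, gam m S c y ∈ L)
    (hzL : z ∈ L) (hzS : ∀ d, d ∉ S → z d = 0) (hz : ∀ c ∈ S, 0 ≤ ell m S c z) {R : ℝ}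
    (hbd : ∀ x ∈ L, ∀ d, |x d| ≤ R) :
    ∑ c ∈ S, ell m S c z * phi m S L c ≤ (S.card : ℝ) * (vol S (L ∩ Cone m S)).toReal := by
  have h := pyramid_ineq hm hcl hL hconv hinv hzL hzS hz
  have hfin : vol S (L ∩ Cone m S) ≠ ⊤ :=
    (vol_lt_top S (R := R) fun x hx d => hbd x hx.1 d).ne
  have hfin2 : (S.card : ℝ≥0∞) * vol S (L ∩ Cone m S) ≠ ⊤ :=
    ENNReal.mul_ne_top (ENNReal.natCast_ne_top _) hfin
  have h2 : ENNReal.ofReal (∑ c ∈ S, ell m S c z * phi m S L c) ≤
      (S.card : ℝ≥0∞) * vol S (L ∩ Cone m S) := by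
    refine le_trans ?_ h
    rw [ENNReal.ofReal_sum_of_nonneg (fun c hc => mul_nonneg (hz c hc) (phi_nonneg _ _ _ _))]
    refine Finset.sum_le_sum fun c hc => ?_
    rw [ENNReal.ofReal_mul (hz c hc)]
    gcongr
    exact ENNReal.ofReal_toReal_le
  have h3 := (ENNReal.ofReal_le_iff_le_toReal hfin2).1 h2
  rwa [ENNReal.toReal_mul, ENNReal.toReal_natCast] at h3

/-- The linear functional vector. -/
def wv (m : I → ℕ) (S : Finset (Ix J I)) (p : Ix J I → ℝ) (c : Ix J I) : ℝ :=
  if c ∈ S then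
    match c with
    | Sum.inl j => p (Sum.inl j)
    | Sum.inr (i, false) => if B i ∈ S then p (B i) * Real.sin (al m i) else p (A i)
    | Sum.inr (i, true) => p (B i) * (1 - Real.cos (al m i))
  else 0

lemma wv_notMem {c : Ix J I} (h : c ∉ S) (p : Ix J I → ℝ) : wv m S p c = 0 := by
  simp [wv, h]

lemma wv_single {c : Ix J I} (hc : c ∈ S) (hs : Single S c) (p : Ix J I → ℝ) :
    wv m S p c = p c := by
  rcases hs with ⟨j, rfl⟩ | ⟨i, rfl, h⟩
  · simp [wv, hc]
  · simp [wv, hc, h]

lemma wv_B {i : I} (h : B i ∈ S) (p : Ix J I → ℝ) :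
    wv m S p (B i) = p (B i) * (1 - Real.cos (al m i)) := by
  simp [wv, h]

lemma wv_A {i : I} (hcl : Closed S) (h : B i ∈ S) (p : Ix J I → ℝ) :
    wv m S p (A i) = p (B i) * Real.sin (al m i) := by
  have := hcl i h
  simp [wv, h, this]

lemma dot_wv (hcl : Closed S) {p : Ix J I → ℝ} (hp : ∀ i, B i ∈ S → p (A i) = p (B i))
    (x : Ix J I → ℝ) : dot x (wv m S p) = ∑ c ∈ S, ell m S c x * p c := by
  have h0 : ∑ c ∈ S, ell m S c x * p c =
      ∑ c, (if c ∈ S then ell m S c x * p c else 0) := by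
    rw [Finset.sum_ite_mem, Finset.univ_inter]
  rw [h0]
  unfold dot
  simp only [Fintype.sum_sum_type, Fintype.sum_prod_type, Fintype.sum_bool]
  congr 1
  · refine Finset.sum_congr rfl fun j _ => ?_
    by_cases h : (Sum.inl j : Ix J I) ∈ S
    · simp [wv, ell, h]
    · simp [wv, h]
  · refine Finset.sum_congr rfl fun i _ => ?_
    by_cases hB : B i ∈ S
    · have hA := hcl i hB
      have e1 := wv_A (m := m) hcl hB p
      have e2 := wv_B (m := m) hB p
      have e3 := ell_A (m := m) hB x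
      have e4 : ell m S (B i) x = x (B i) := ell_plain (plain_B S i) x
      have e5 := hp i hB
      show x (B i) * wv m S p (B i) + x (A i) * wv m S p (A i) =
        (if B i ∈ S then ell m S (B i) x * p (B i) else 0) +
        (if A i ∈ S then ell m S (A i) x * p (A i) else 0)
      rw [if_pos hB, if_pos hA, e1, e2, e3, e4, e5]
      ring
    · show x (B i) * wv m S p (B i) + x (A i) * wv m S p (A i) =
        (if B i ∈ S then ell m S (B i) x * p (B i) else 0) +
        (if A i ∈ S then ell m S (A i) x * p (A i) else 0)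
      rw [if_neg hB, wv_notMem hB, mul_zero, zero_add, zero_add]
      by_cases hA : A i ∈ S
      · have hpl : Plain S (A i) := by
          intro i' hi'
          have : i = i' := by simpa [A] using hi'
          rwa [← this]
        rw [if_pos hA, wv_single hA (Or.inr ⟨i, rfl, hB⟩), ell_plain hpl]
      · rw [if_neg hA, wv_notMem hA, mul_zero]

lemma ell_wv_single {c : Ix J I} (hc : c ∈ S) (hs : Single S c) (p : Ix J I → ℝ) :
    ell m S c (wv m S p) = p c := by
  rw [ell_plain hs.plain, wv_single hc hs]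

lemma ell_wv_B {i : I} (h : B i ∈ S) (p : Ix J I → ℝ) :
    ell m S (B i) (wv m S p) = p (B i) * (1 - Real.cos (al m i)) := by
  rw [ell_plain (plain_B S i), wv_B h]

lemma ell_wv_A {i : I} (hcl : Closed S) (h : B i ∈ S) (p : Ix J I → ℝ) :
    ell m S (A i) (wv m S p) = p (B i) * (1 - Real.cos (al m i)) := by
  rw [ell_A h, wv_A hcl h, wv_B h]
  have := Real.sin_sq_add_cos_sq (al m i)
  linear_combination (p (B i)) * this

lemma ell_smul (m : I → ℕ) (S : Finset (Ix J I)) (c : Ix J I) (r : ℝ) (u : Ix J I → ℝ) :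
    ell m S c (r • u) = r * ell m S c u := by
  rcases plain_or S c with h | ⟨i, rfl, h⟩
  · simp only [ell_plain h]; simp
  · simp only [ell_A h]; simp; ring

/-- Optimality gives the sign conditions for the apex. -/
lemma ell_nonneg_of_max (hm : ∀ i, 3 ≤ m i) (hK : InClass m S K) (hcl : Closed S)
    {p : Ix J I → ℝ} (hp : ∀ c ∈ S, 0 < p c) {y : Ix J I → ℝ} (hy : y ∈ K)
    (hmax : ∀ x ∈ K, dot x (wv m S p) ≤ dot y (wv m S p)) {c : Ix J I} (hc : c ∈ S) :
    0 ≤ ell m S c y := by
  rcases tri S c with hs | ⟨i, rfl⟩ | ⟨i, rfl, hB⟩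
  · have h := hmax _ (hK.flip c hc hs y hy)
    rw [flipAt, dot_update_left, wv_single hc hs] at h
    rw [ell_plain hs.plain]
    have hpc := hp c hc
    by_contra hcon
    push Not at hcon
    nlinarith [mul_pos_of_neg_of_neg hcon (neg_neg_of_pos hpc)]
  · have hB : B i ∈ S := hc
    have h := hmax _ (hK.rot_fwd hB hy)
    rw [dot_rot2_left (A_ne_B i i), wv_A hcl hB, wv_B hB] at h
    rw [ell_plain (plain_B S i)]
    have hsq := Real.sin_sq_add_cos_sq (al m i)
    have hC := cos_al_lt_one hm i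
    have hpos : 0 < p (B i) * (1 - Real.cos (al m i)) := mul_pos (hp _ hc) (by linarith)
    have e : (Real.cos (al m i) * y (A i) - Real.sin (al m i) * y (B i) - y (A i)) *
          (p (B i) * Real.sin (al m i)) +
        (Real.sin (al m i) * y (A i) + Real.cos (al m i) * y (B i) - y (B i)) *
          (p (B i) * (1 - Real.cos (al m i))) =
        - 2 * (p (B i) * (1 - Real.cos (al m i))) * y (B i) := by
      linear_combination (- p (B i) * y (B i)) * hsq
    have h2 : - 2 * (p (B i) * (1 - Real.cos (al m i))) * y (B i) ≤ 0 := by linarith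
    by_contra hcon
    push Not at hcon
    nlinarith [mul_pos_of_neg_of_neg hcon (neg_neg_of_pos hpos)]
  · have h := hmax _ (hK.rot_bwd hm hB hy)
    rw [dot_rot2_left (A_ne_B i i), wv_A hcl hB, wv_B hB, Real.cos_neg, Real.sin_neg] at h
    rw [ell_A hB]
    have hsq := Real.sin_sq_add_cos_sq (al m i)
    have hC := cos_al_lt_one hm i
    have hpos : 0 < p (B i) * (1 - Real.cos (al m i)) := mul_pos (hp _ hB) (by linarith)
    have e : (Real.cos (al m i) * y (A i) - -Real.sin (al m i) * y (B i) - y (A i)) *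
          (p (B i) * Real.sin (al m i)) +
        (-Real.sin (al m i) * y (A i) + Real.cos (al m i) * y (B i) - y (B i)) *
          (p (B i) * (1 - Real.cos (al m i))) =
        - 2 * (p (B i) * (1 - Real.cos (al m i))) *
          (y (A i) * Real.sin (al m i) - y (B i) * Real.cos (al m i)) := by
      linear_combination (p (B i) * y (B i)) * hsq
    have h2 : - 2 * (p (B i) * (1 - Real.cos (al m i))) *
        (y (A i) * Real.sin (al m i) - y (B i) * Real.cos (al m i)) ≤ 0 := by linarith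
    by_contra hcon
    push Not at hcon
    nlinarith [mul_pos_of_neg_of_neg hcon (neg_neg_of_pos hpos)]

/-- The trigonometric inequality. -/
lemma one_sub_cos_bound (hm : ∀ i, 3 ≤ m i) (i : I) :
    9 / 2 ≤ (1 - Real.cos (al m i)) * (m i : ℝ) ^ 2 := by
  have hm0 : (0:ℝ) < m i := by
    have : 0 < m i := by linarith [hm i]
    exact_mod_cast this
  have hpi := Real.pi_pos
  set u := al m i / 2 with hu
  have hu0 : 0 < u := by have := al_pos hm i; positivity
  have hu1 : u ≤ Real.pi / 6 := by have := al_le hm i; rw [hu]; linarith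
  have hsin : 3 * u / Real.pi ≤ Real.sin u := by
    have hc : (6 * u / Real.pi) • Real.sin (Real.pi / 6) + (1 - 6 * u / Real.pi) • Real.sin 0 ≤
        Real.sin ((6 * u / Real.pi) • (Real.pi / 6) + (1 - 6 * u / Real.pi) • 0) :=
      strictConcaveOn_sin_Icc.concaveOn.2
      ⟨by positivity, by linarith⟩ ⟨le_refl _, hpi.le⟩
      (by positivity) (by
        have : 6 * u / Real.pi ≤ 1 := by rw [div_le_one hpi]; linarith
        linarith) (by ring)
    simp only [smul_eq_mul, Real.sin_zero, mul_zero, add_zero, Real.sin_pi_div_six] at hc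
    have e : 6 * u / Real.pi * (Real.pi / 6) = u := by field_simp
    rw [e] at hc
    have e2 : 6 * u / Real.pi * (1 / 2) = 3 * u / Real.pi := by ring
    rwa [e2] at hc
  have hcos : 1 - Real.cos (al m i) = 2 * Real.sin u ^ 2 := by
    have : al m i = 2 * u := by rw [hu]; ring
    rw [this, Real.cos_two_mul]
    have := Real.sin_sq_add_cos_sq u
    nlinarith
  have hmal : (m i : ℝ) * u = Real.pi / 2 := by
    rw [hu]
    have := m_mul_al hm i
    linear_combination (1 / 2) * this
  rw [hcos]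
  have h1 : 0 ≤ 3 * u / Real.pi := by positivity
  have h2 : (3 * u / Real.pi) ^ 2 ≤ Real.sin u ^ 2 := pow_le_pow_left₀ h1 hsin 2
  have h3 : 2 * (3 * u / Real.pi) ^ 2 * (m i : ℝ) ^ 2 = 9 / 2 := by
    have : 2 * (3 * u / Real.pi) ^ 2 * (m i : ℝ) ^ 2 = 18 * ((m i : ℝ) * u) ^ 2 / Real.pi ^ 2 := by
      field_simp
      ring
    rw [this, hmal]
    field_simp
    ring
  have h4 : 2 * (3 * u / Real.pi) ^ 2 * (m i : ℝ) ^ 2 ≤ 2 * Real.sin u ^ 2 * (m i : ℝ) ^ 2 := by
    gcongr
  linarith

lemma pos_of_mul_pos_nonneg {a b : ℝ} (h : 0 < a * b) (ha : 0 ≤ a) : 0 < a := by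
  rcases ha.eq_or_lt with e | e
  · rw [← e, zero_mul] at h
    exact absurd h (lt_irrefl _)
  · exact e

/-- Recursion step. -/
theorem step (hm : ∀ i, 3 ≤ m i) (hcl : Closed S) (hK : InClass m S K) (hne : S.Nonempty)
    (IH : ∀ S', S' ⊂ S → Closed S' → ∀ K', InClass m S' K' → TT m S' ≤ QQ m S' K') :
    TT m S ≤ QQ m S K ∧ ((∃ i, B i ∈ S) → TT m S < QQ m S K) := by
  obtain ⟨Rp, hRp⟩ := polar_bound hK
  obtain ⟨RK, hRK⟩ := hK.bounded
  have hlow_single : ∀ c ∈ S, Single S c →
      TT m (S.erase c) ≤ phi m S K c * phi m S (Polar S K) c := by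
    intro c hc hs
    have hrm : rm S c = c := rm_plain hs.plain
    have h1 := IH (S.erase c) (Finset.erase_ssubset hc) (closed_erase_single hcl hs) _
      (hK.erase_single hs)
    refine h1.trans ?_
    unfold QQ phi Bas
    rw [hrm]
    apply mul_le_mul_of_nonneg_left _ ENNReal.toReal_nonneg
    apply ENNReal.toReal_mono
    · exact (vol_lt_top _ (R := Rp) fun x hx d => hRp x hx.1.1 d).ne
    · exact vol_mono _ fun y hy => ⟨polar_single_subset hK hc hs hy.1, hy.2⟩
  have hlow_block : ∀ i, B i ∈ S →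
      12 / 13 * TT m (S.erase (B i)) ≤ phi m S K (B i) * phi m S (Polar S K) (B i) := by
    intro i hB
    have hrm : rm S (B i) = B i := rm_plain (plain_B S i)
    have h1 := IH (S.erase (B i)) (Finset.erase_ssubset hB) (closed_erase_B hcl i) _
      (hK.erase_B hm hB)
    have h2 := vol_polar_block hm hK hcl hB
    unfold QQ at h1
    have h3 : 12 / 13 * (vol (S.erase (B i)) (Polar (S.erase (B i)) (K ∩ {x | x (B i) = 0}) ∩
        Cone m (S.erase (B i)))).toReal ≤ phi m S (Polar S K) (B i) := by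
      unfold phi
      rw [hrm]
      have hfin : vol (S.erase (B i)) (Bas m S (Polar S K) (B i)) ≠ ⊤ :=
        (vol_lt_top _ (R := Rp) fun x hx d => hRp x hx.1.1 d).ne
      have h4 := ENNReal.toReal_mono hfin h2
      rwa [ENNReal.toReal_mul, ENNReal.toReal_ofReal (by norm_num)] at h4
    have hv1 : phi m S K (B i) = (vol (S.erase (B i)) ((K ∩ {x | x (B i) = 0}) ∩
        Cone m (S.erase (B i)))).toReal := by
      unfold phi Bas
      rw [hrm]
    rw [hv1]
    have hn1 : 0 ≤ (vol (S.erase (B i)) ((K ∩ {x | x (B i) = 0}) ∩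
        Cone m (S.erase (B i)))).toReal := ENNReal.toReal_nonneg
    calc 12 / 13 * TT m (S.erase (B i))
        ≤ 12 / 13 * ((vol (S.erase (B i)) ((K ∩ {x | x (B i) = 0}) ∩
            Cone m (S.erase (B i)))).toReal * (vol (S.erase (B i))
            (Polar (S.erase (B i)) (K ∩ {x | x (B i) = 0}) ∩ Cone m (S.erase (B i)))).toReal) := by
          gcongr
      _ = (vol (S.erase (B i)) ((K ∩ {x | x (B i) = 0}) ∩ Cone m (S.erase (B i)))).toReal *
          (12 / 13 * (vol (S.erase (B i))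
            (Polar (S.erase (B i)) (K ∩ {x | x (B i) = 0}) ∩ Cone m (S.erase (B i)))).toReal) := by
          ring
      _ ≤ _ := mul_le_mul_of_nonneg_left h3 hn1
  have hpos : ∀ c ∈ S, 0 < phi m S K c := by
    intro c hc
    rcases tri S c with hs | ⟨i, rfl⟩ | ⟨i, rfl, hB⟩
    · have h1 := hlow_single c hc hs
      have h2 := TT_pos hm (S.erase c)
      exact pos_of_mul_pos_nonneg (lt_of_lt_of_le h2 h1) (phi_nonneg _ _ _ _)
    · have h1 := hlow_block i hc
      have h2 := TT_pos hm (S.erase (B i))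
      exact pos_of_mul_pos_nonneg (lt_of_lt_of_le (by positivity) h1) (phi_nonneg _ _ _ _)
    · rw [phi_A m K hB]
      have h1 := hlow_block i hB
      have h2 := TT_pos hm (S.erase (B i))
      exact pos_of_mul_pos_nonneg (lt_of_lt_of_le (by positivity) h1) (phi_nonneg _ _ _ _)
  have hpA : ∀ i, B i ∈ S → phi m S K (A i) = phi m S K (B i) := fun i h => phi_A m K h
  obtain ⟨y, hy, hmax⟩ := hK.comp.exists_isMaxOn ⟨0, hK.zero_mem⟩
    ((continuous_dot_left (wv m S (phi m S K))).continuousOn (s := K))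
  have hmax' : ∀ x ∈ K, dot x (wv m S (phi m S K)) ≤ dot y (wv m S (phi m S K)) :=
    fun x hx => hmax hx
  have hell : ∀ c ∈ S, 0 ≤ ell m S c y := fun c hc =>
    ell_nonneg_of_max hm hK hcl hpos hy hmax' hc
  have h1 := pyramid_real hm hcl hK.comp.measurableSet hK.conv
    (fun c _ y hy => hK.gam_mem hy) hy (hK.supp y hy) hell hRK
  rw [← dot_wv hcl hpA] at h1
  -- positivity of the maximum
  obtain ⟨c0, hc0⟩ := hne
  have hwc0 : 0 < wv m S (phi m S K) c0 := by
    rcases tri S c0 with hs | ⟨i, rfl⟩ | ⟨i, rfl, hB⟩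
    · rw [wv_single hc0 hs]; exact hpos _ hc0
    · rw [wv_B hc0]
      exact mul_pos (hpos _ hc0) (by linarith [cos_al_lt_one hm i])
    · rw [wv_A hcl hB]
      exact mul_pos (hpos _ hB) (sin_al_pos hm i)
  obtain ⟨r, hr, habs⟩ := hK.absorb
  have hx0 : update (0 : Ix J I → ℝ) c0 r ∈ K := by
    apply habs
    · intro d hd
      have : d ≠ c0 := fun e => hd (e ▸ hc0)
      simp [update_of_ne this]
    · intro d
      by_cases e : d = c0
      · subst e; simp [abs_of_pos hr]
      · simpa [update_of_ne e] using hr.le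
  have h2 := hmax' _ hx0
  rw [dot_single_left] at h2
  have hdotpos : 0 < dot y (wv m S (phi m S K)) := lt_of_lt_of_le (mul_pos hr hwc0) h2
  have hn : (0:ℝ) < (S.card : ℝ) := by
    exact_mod_cast Finset.card_pos.2 ⟨c0, hc0⟩
  have hv : 0 < (vol S (K ∩ Cone m S)).toReal := by
    have h3 : 0 < (S.card : ℝ) * (vol S (K ∩ Cone m S)).toReal := lt_of_lt_of_le hdotpos h1
    exact pos_of_mul_pos_nonneg (by rwa [mul_comm] at h3) ENNReal.toReal_nonneg
  set n : ℝ := (S.card : ℝ) with hndef
  set v := (vol S (K ∩ Cone m S)).toReal with hvdef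
  set v' := (vol S (Polar S K ∩ Cone m S)).toReal with hv'def
  have hnv : 0 < n * v := mul_pos hn hv
  set a : Ix J I → ℝ := (n * v)⁻¹ • wv m S (phi m S K) with ha
  have hell_w : ∀ c ∈ S, 0 ≤ ell m S c (wv m S (phi m S K)) := by
    intro c hc
    rcases tri S c with hs | ⟨i, rfl⟩ | ⟨i, rfl, hB⟩
    · rw [ell_wv_single hc hs]; exact (hpos c hc).le
    · rw [ell_wv_B hc]
      exact mul_nonneg (hpos _ hc).le (by linarith [cos_al_lt_one hm i])
    · rw [ell_wv_A hcl hB]
      exact mul_nonneg (hpos _ hB).le (by linarith [cos_al_lt_one hm i])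
  have haS : ∀ d, d ∉ S → a d = 0 := by
    intro d hd
    simp [ha, wv_notMem hd]
  have haP : a ∈ Polar S K := by
    refine ⟨haS, fun x hx => ?_⟩
    rw [ha, dot_smul_right]
    have h4 := hmax' x hx
    have h5 : dot x (wv m S (phi m S K)) ≤ n * v := h4.trans h1
    calc (n * v)⁻¹ * dot x (wv m S (phi m S K)) ≤ (n * v)⁻¹ * (n * v) := by gcongr
      _ = 1 := inv_mul_cancel₀ hnv.ne'
  have hella : ∀ c ∈ S, 0 ≤ ell m S c a := by
    intro c hc
    rw [ha, ell_smul]
    exact mul_nonneg (inv_nonneg.2 hnv.le) (hell_w c hc)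
  have h3 := pyramid_real hm hcl (measurableSet_Polar S K) (convex_Polar S K)
    (fun c hc y hy => Polar_gam_mem hm hK hc hy) haP haS hella hRp
  have h4 : ∑ c ∈ S, ell m S c (wv m S (phi m S K)) * phi m S (Polar S K) c ≤ n * v * (n * v') := by
    have e : ∑ c ∈ S, ell m S c a * phi m S (Polar S K) c =
        (n * v)⁻¹ * ∑ c ∈ S, ell m S c (wv m S (phi m S K)) * phi m S (Polar S K) c := by
      rw [Finset.mul_sum]
      refine Finset.sum_congr rfl fun c _ => ?_
      rw [ha, ell_smul]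
      ring
    rw [e, inv_mul_le_iff₀ hnv] at h3
    exact h3
  -- the bound for each term
  obtain ⟨k, hk⟩ : ∃ k, S.card = k + 1 := ⟨S.card - 1, by
    have := Finset.card_pos.2 ⟨c0, hc0⟩
    omega⟩
  have hG := GG_pos hm S
  set D : ℝ := (4 ^ k / (k.factorial : ℝ)) / (GG m S) ^ 2 with hD
  have hD0 : 0 ≤ D := by positivity
  have hTT : ∀ r ∈ S, TT m (S.erase r) = D * (g0 m r) ^ 2 := by
    intro r hr
    rw [TT_erase hm hr hk, hD]
    ring
  have hD1 : 0 < D := by positivity
  have hblock_bound : ∀ i, B i ∈ S → 4 * D <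
      phi m S K (B i) * (1 - Real.cos (al m i)) * phi m S (Polar S K) (B i) := by
    intro i hB
    have h5 := hlow_block i hB
    rw [hTT _ hB] at h5
    have h6 : g0 m (B i : Ix J I) = m i := rfl
    rw [h6] at h5
    have h7 := one_sub_cos_bound hm i
    have h8 : 0 ≤ 1 - Real.cos (al m i) := by linarith [cos_al_lt_one hm i]
    have h9 : (1 - Real.cos (al m i)) * (12 / 13 * (D * (m i : ℝ) ^ 2)) ≤
        (1 - Real.cos (al m i)) * (phi m S K (B i) * phi m S (Polar S K) (B i)) :=
      mul_le_mul_of_nonneg_left h5 h8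
    have h10 : 4 * D < (1 - Real.cos (al m i)) * (12 / 13 * (D * (m i : ℝ) ^ 2)) := by
      have : (1 - Real.cos (al m i)) * (12 / 13 * (D * (m i : ℝ) ^ 2)) =
          (12 / 13 * ((1 - Real.cos (al m i)) * (m i : ℝ) ^ 2)) * D := by ring
      rw [this]
      have h11 : 4 < 12 / 13 * ((1 - Real.cos (al m i)) * (m i : ℝ) ^ 2) := by linarith
      nlinarith
    nlinarith
  have hterm : ∀ c ∈ S, 4 * D ≤ ell m S c (wv m S (phi m S K)) * phi m S (Polar S K) c := by
    intro c hc
    rcases tri S c with hs | ⟨i, rfl⟩ | ⟨i, rfl, hB⟩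
    · rw [ell_wv_single hc hs]
      have h5 := hlow_single c hc hs
      rw [hTT c hc] at h5
      have h6 : g0 m c = 2 := by
        rcases hs with ⟨j, rfl⟩ | ⟨i, rfl, _⟩ <;> rfl
      rw [h6] at h5
      linarith
    · rw [ell_wv_B hc]
      exact (hblock_bound i hc).le
    · rw [ell_wv_A hcl hB, phi_A m _ hB]
      exact (hblock_bound i hB).le
  have hsum := Finset.card_nsmul_le_sum S _ (4 * D) hterm
  rw [nsmul_eq_mul] at hsum
  have hTTS : TT m S = (4 * D) / n := by
    rw [TT_succ hk hG.ne', hD, hndef, hk]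
    push_cast
    ring
  have hQQ : QQ m S K = v * v' := rfl
  constructor
  · have hfinal : n * (4 * D) ≤ n * v * (n * v') := hsum.trans h4
    rw [hTTS, div_le_iff₀ hn, hQQ]
    have hfinal2 : n * (4 * D) ≤ n * (v * v' * n) := by
      calc n * (4 * D) ≤ n * v * (n * v') := hfinal
        _ = n * (v * v' * n) := by ring
    exact le_of_mul_le_mul_left hfinal2 hn
  · rintro ⟨i, hB⟩
    have hlt : ∑ _c ∈ S, (4 * D) <
        ∑ c ∈ S, ell m S c (wv m S (phi m S K)) * phi m S (Polar S K) c := by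
      refine Finset.sum_lt_sum hterm ⟨B i, hB, ?_⟩
      rw [ell_wv_B hB]
      exact hblock_bound i hB
    rw [Finset.sum_const, nsmul_eq_mul] at hlt
    have hfinal : n * (4 * D) < n * v * (n * v') := lt_of_lt_of_le hlt h4
    rw [hTTS, div_lt_iff₀ hn, hQQ]
    have hfinal2 : n * (4 * D) < n * (v * v' * n) := by
      calc n * (4 * D) < n * v * (n * v') := hfinal
        _ = n * (v * v' * n) := by ring
    exact lt_of_mul_lt_mul_left hfinal2 hn.le

lemma vol_empty_of_zero_mem {X : Set (Ix J I → ℝ)} (h : (0 : Ix J I → ℝ) ∈ X) :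
    vol (∅ : Finset (Ix J I)) X = 1 := by
  unfold vol
  have : (fun y : (∅ : Finset (Ix J I)) → ℝ => updateFinset (0 : Ix J I → ℝ) ∅ y) ⁻¹' X = univ := by
    ext y
    simp only [mem_preimage, mem_univ, iff_true]
    convert h using 1
    ext d
    simp [updateFinset]
  rw [this, volume_pi, Measure.pi_univ]
  simp

/-- **The main inequality** for all active sets. -/
theorem mainIneq (hm : ∀ i, 3 ≤ m i) (S : Finset (Ix J I)) :
    Closed S → ∀ K, InClass m S K → TT m S ≤ QQ m S K := by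
  induction S using Finset.strongInduction with
  | H S ih =>
    intro hcl K hK
    by_cases hS : S = ∅
    · subst hS
      have h0 := hK.zero_mem
      have e1 : vol (∅ : Finset (Ix J I)) (K ∩ Cone m ∅) = 1 :=
        vol_empty_of_zero_mem ⟨h0, fun c hc => absurd hc (Finset.notMem_empty c)⟩
      have e2 : vol (∅ : Finset (Ix J I)) (Polar ∅ K ∩ Cone m ∅) = 1 :=
        vol_empty_of_zero_mem ⟨⟨fun _ _ => rfl, fun x _ => by simp [dot]⟩,
          fun c hc => absurd hc (Finset.notMem_empty c)⟩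
      unfold QQ TT GG
      rw [e1, e2]
      simp
    · exact (step hm hcl hK (Finset.nonempty_iff_ne_empty.2 hS)
        (fun S' hS' hcl' K' hK' => ih S' hS' hcl' K' hK')).1

/-- Strict form as soon as a plane is active. -/
theorem mainStrict (hm : ∀ i, 3 ≤ m i) {S : Finset (Ix J I)} (hcl : Closed S)
    {K : Set (Ix J I → ℝ)} (hK : InClass m S K) {i : I} (hB : B i ∈ S) :
    TT m S < QQ m S K :=
  (step hm hcl hK ⟨_, hB⟩ (fun S' _ hcl' K' hK' => mainIneq hm S' hcl' K' hK')).2 ⟨i, hB⟩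

end Vale.Agent.Lib.P248
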