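import Vale.Agent.Lib.P248.Sector

open MeasureTheory Set Function
open scoped ENNReal

set_option linter.unusedSectionVars false

noncomputable section
namespace Vale.Agent.Lib.P248

variable {J I : Type*} [Fintype J] [Fintype I] [DecidableEq J] [DecidableEq I]
variable {m : I → ℕ}

/-- Sign flip of one coordinate. -/
def flipAt {ι : Type*} [DecidableEq ι] (c : ι) (x : ι → ℝ) : ι → ℝ := update x c (- x c)

/-- Polar body relative to the active set `S`. -/
def Polar (S : Finset (Ix J I)) (K : Set (Ix J I → ℝ)) : Set (Ix J I → ℝ) :=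
  {y | (∀ d, d ∉ S → y d = 0) ∧ ∀ x ∈ K, dot x y ≤ 1}

/-- Coordinates which are removed alone: they carry a sign flip symmetry. -/
def Single (S : Finset (Ix J I)) (c : Ix J I) : Prop :=
  (∃ j, c = Sum.inl j) ∨ ∃ i, c = A i ∧ B i ∉ S

lemma tri (S : Finset (Ix J I)) (c : Ix J I) :
    Single S c ∨ (∃ i, c = B i) ∨ ∃ i, c = A i ∧ B i ∈ S := by
  rcases c with j | ⟨i, b⟩
  · exact Or.inl (Or.inl ⟨j, rfl⟩)
  · cases b
    · by_cases h : B i ∈ S
      · exact Or.inr (Or.inr ⟨i, rfl, h⟩)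
      · exact Or.inl (Or.inr ⟨i, rfl, h⟩)
    · exact Or.inr (Or.inl ⟨i, rfl⟩)

lemma Single.plain {S : Finset (Ix J I)} {c : Ix J I} (h : Single S c) : Plain S c := by
  intro i hi
  rcases h with ⟨j, rfl⟩ | ⟨i', rfl, h⟩
  · simp [A] at hi
  · have : i' = i := by simpa [A] using hi
    rwa [← this]

lemma plain_B (S : Finset (Ix J I)) (i : I) : Plain S (B i) := by
  intro i' hi'
  simp [B, A] at hi'

/-- The class of bodies in the induction. -/
structure InClass (m : I → ℕ) (S : Finset (Ix J I)) (K : Set (Ix J I → ℝ)) : Prop where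
  conv : Convex ℝ K
  comp : IsCompact K
  supp : ∀ x ∈ K, ∀ d, d ∉ S → x d = 0
  absorb : ∃ r : ℝ, 0 < r ∧ ∀ x : Ix J I → ℝ, (∀ d, d ∉ S → x d = 0) → (∀ d, |x d| ≤ r) → x ∈ K
  flip : ∀ c ∈ S, Single S c → ∀ x ∈ K, flipAt c x ∈ K
  rot : ∀ i, B i ∈ S → ∀ k : ℕ, ∀ x ∈ K, rot2 (A i) (B i) ((k:ℝ) * al m i) x ∈ K

lemma rot2_add_two_pi {ι : Type*} [Fintype ι] [DecidableEq ι] (a b : ι) (θ : ℝ) (x : ι → ℝ) :
    rot2 a b (θ + 2 * Real.pi) x = rot2 a b θ x := by
  unfold rot2
  rw [Real.cos_add_two_pi, Real.sin_add_two_pi]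

lemma m_mul_al (hm : ∀ i, 3 ≤ m i) (i : I) : (m i : ℝ) * al m i = Real.pi := by
  have : (m i : ℝ) ≠ 0 := by
    have : 0 < m i := by linarith [hm i]
    positivity
  unfold al
  field_simp

namespace InClass
variable {S : Finset (Ix J I)} {K : Set (Ix J I → ℝ)}

lemma rot_fwd (hK : InClass m S K) {i : I} (h : B i ∈ S) {x : Ix J I → ℝ} (hx : x ∈ K) :
    rot2 (A i) (B i) (al m i) x ∈ K := by
  have := hK.rot i h 1 x hx
  simpa using this

lemma rot_pi (hm : ∀ i, 3 ≤ m i) (hK : InClass m S K) {i : I} (h : B i ∈ S) {x : Ix J I → ℝ}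
    (hx : x ∈ K) : rot2 (A i) (B i) Real.pi x ∈ K := by
  have := hK.rot i h (m i) x hx
  rwa [m_mul_al hm] at this

lemma rot_bwd (hm : ∀ i, 3 ≤ m i) (hK : InClass m S K) {i : I} (h : B i ∈ S) {x : Ix J I → ℝ}
    (hx : x ∈ K) : rot2 (A i) (B i) (-al m i) x ∈ K := by
  have h1 := hK.rot i h (2 * m i - 1) x hx
  have h3 : 1 ≤ 2 * m i := by linarith [hm i]
  have h2 : (((2 * m i - 1 : ℕ) : ℝ)) * al m i = -al m i + 2 * Real.pi := by
    rw [Nat.cast_sub h3]
    push_cast
    have := m_mul_al hm i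
    linear_combination 2 * this
  rw [h2, rot2_add_two_pi] at h1
  exact h1

lemma gam_mem (hK : InClass m S K) {c : Ix J I} {x : Ix J I → ℝ} (hx : x ∈ K) :
    gam m S c x ∈ K := by
  rcases plain_or S c with h | ⟨i, rfl, h⟩
  · rwa [gam_plain h]
  · rw [gam_A h]; exact hK.rot_fwd h hx

lemma bounded (hK : InClass m S K) : ∃ R : ℝ, ∀ x ∈ K, ∀ d, |x d| ≤ R := by
  obtain ⟨R, hR⟩ := hK.comp.isBounded.exists_norm_le
  refine ⟨R, fun x hx d => ?_⟩
  have := hR x hx
  exact (norm_le_pi_norm x d).trans this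

lemma zero_mem (hK : InClass m S K) : (0 : Ix J I → ℝ) ∈ K := by
  obtain ⟨r, hr, h⟩ := hK.absorb
  exact h 0 (fun _ _ => rfl) (fun d => by simpa using hr.le)

end InClass

lemma vol_lt_top (S : Finset (Ix J I)) {X : Set (Ix J I → ℝ)} {R : ℝ}
    (hX : ∀ x ∈ X, ∀ d, |x d| ≤ R) : vol S X < ⊤ := by
  have hc : IsCompact (Set.pi univ (fun _ : S => Icc (-R) R)) :=
    isCompact_univ_pi (fun _ => isCompact_Icc)
  refine lt_of_le_of_lt (measure_mono ?_) hc.measure_lt_top
  intro y hy d _
  have := hX _ hy d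
  have h2 : updateFinset (0 : Ix J I → ℝ) S y (d : Ix J I) = y d := by
    simp [updateFinset]
  have h3 : |y d| ≤ R := by rw [← h2]; exact this
  exact abs_le.1 h3

section polar
variable {S : Finset (Ix J I)} {K : Set (Ix J I → ℝ)}

lemma convex_Polar (S : Finset (Ix J I)) (K : Set (Ix J I → ℝ)) : Convex ℝ (Polar S K) := by
  intro y hy y' hy' a b ha hb hab
  refine ⟨fun d hd => ?_, fun x hx => ?_⟩
  · simp [hy.1 d hd, hy'.1 d hd]
  · rw [dot_add_right, dot_smul_right, dot_smul_right]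
    have h1 := hy.2 x hx
    have h2 := hy'.2 x hx
    nlinarith

lemma isClosed_Polar (S : Finset (Ix J I)) (K : Set (Ix J I → ℝ)) : IsClosed (Polar S K) := by
  have : Polar S K = (⋂ d, ⋂ _ : d ∉ S, {y : Ix J I → ℝ | y d = 0}) ∩
      ⋂ x, ⋂ _ : x ∈ K, {y : Ix J I → ℝ | dot x y ≤ 1} := by
    ext y
    simp [Polar]
  rw [this]
  refine IsClosed.inter ?_ ?_
  · exact isClosed_iInter fun d => isClosed_iInter fun _ =>
      isClosed_eq (continuous_apply d) continuous_const
  · exact isClosed_iInter fun x => isClosed_iInter fun _ =>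
      isClosed_le (continuous_dot_right x) continuous_const

lemma measurableSet_Polar (S : Finset (Ix J I)) (K : Set (Ix J I → ℝ)) :
    MeasurableSet (Polar S K) := (isClosed_Polar S K).measurableSet

lemma dot_single_left (c : Ix J I) (t : ℝ) (y : Ix J I → ℝ) :
    dot (update (0 : Ix J I → ℝ) c t) y = t * y c := by
  rw [dot_update_left]
  simp [dot]

lemma polar_bound (hK : InClass m S K) : ∃ R : ℝ, ∀ y ∈ Polar S K, ∀ d, |y d| ≤ R := by
  obtain ⟨r, hr, h⟩ := hK.absorb
  refine ⟨1 / r, fun y hy d => ?_⟩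
  by_cases hd : d ∈ S
  · have key : ∀ t : ℝ, |t| ≤ r → t * y d ≤ 1 := by
      intro t ht
      have hx : update (0 : Ix J I → ℝ) d t ∈ K := by
        apply h
        · intro d' hd'
          have : d' ≠ d := fun e => hd' (e ▸ hd)
          simp [update_of_ne this]
        · intro d'
          by_cases e : d' = d
          · subst e; simpa using ht
          · simpa [update_of_ne e] using hr.le
      have := hy.2 _ hx
      rwa [dot_single_left] at this
    have h1 := key r (by rw [abs_of_pos hr])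
    have h2 := key (-r) (by rw [abs_neg, abs_of_pos hr])
    rw [le_div_iff₀ hr]
    rcases abs_cases (y d) with ⟨e, _⟩ | ⟨e, _⟩ <;> rw [e] <;> nlinarith
  · rw [hy.1 d hd, abs_zero]
    positivity

lemma Polar_gam_mem (hm : ∀ i, 3 ≤ m i) (hK : InClass m S K) {c : Ix J I} (hc : c ∈ S)
    {y : Ix J I → ℝ} (hy : y ∈ Polar S K) : gam m S c y ∈ Polar S K := by
  rcases plain_or S c with h | ⟨i, rfl, h⟩
  · rwa [gam_plain h]
  · rw [gam_A h]
    refine ⟨fun d hd => ?_, fun x hx => ?_⟩
    · have h1 : d ≠ A i := by rintro rfl; exact hd hc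
      have h2 : d ≠ B i := by rintro rfl; exact hd h
      rw [rot2_other h1 h2]
      exact hy.1 d hd
    · have := dot_rot2 (A_ne_B i i) (-al m i) x y
      rw [neg_neg] at this
      rw [← this]
      exact hy.2 _ (hK.rot_bwd hm h hx)

end polar

/-! ### The section lemma -/

lemma key_quad {p q Sn Cs : ℝ} (hS : 0 < Sn) (hq : 0 ≤ q) (hp : 0 < p)
    (h1 : Sn ^ 2 + Cs ^ 2 = 1) (h2 : 1 / 2 ≤ Cs) (h3 : Cs < 1) :
    12 * p * (Sn * p + (1 - Cs) * q) ≤ 13 * (Sn * (p ^ 2 + q ^ 2)) := by
  have e : Sn * (13 * (Sn * (p ^ 2 + q ^ 2)) - 12 * p * (Sn * p + (1 - Cs) * q)) =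
      (Sn * p - 6 * (1 - Cs) * q) ^ 2 + (1 - Cs) * (49 * Cs - 23) * q ^ 2 := by
    have : Sn ^ 2 = (1 - Cs) * (1 + Cs) := by nlinarith
    linear_combination (13 * q ^ 2) * this
  have h4 : 0 ≤ (1 - Cs) * (49 * Cs - 23) * q ^ 2 := by
    apply mul_nonneg (mul_nonneg (by linarith) (by linarith)) (sq_nonneg q)
  have h5 : 0 ≤ Sn * (13 * (Sn * (p ^ 2 + q ^ 2)) - 12 * p * (Sn * p + (1 - Cs) * q)) := by
    rw [e]; positivity
  have h6 := nonneg_of_mul_nonneg_right h5 hS
  linarith

/-- Existence of a point on the axis close to the maximum of the first coordinate. -/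
lemma exists_axis_point (hm : ∀ i, 3 ≤ m i) {S : Finset (Ix J I)} {K : Set (Ix J I → ℝ)}
    (hK : InClass m S K) {i : I} (hB : B i ∈ S) {y : Ix J I → ℝ} (hy : y ∈ K) (hp : 0 < y (A i))
    (hle1 : Real.cos (al m i) * y (A i) - Real.sin (al m i) * y (B i) ≤ y (A i))
    (hle2 : Real.cos (al m i) * y (A i) + Real.sin (al m i) * y (B i) ≤ y (A i)) :
    ∃ v ∈ K, 12 / 13 * y (A i) ≤ v (A i) ∧ v (B i) = 0 ∧
      ∀ d, d ≠ A i → d ≠ B i → v d = y d := by
  set Sn := Real.sin (al m i) with hSn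
  set Cs := Real.cos (al m i) with hCs
  set p := y (A i) with hpdef
  set q := y (B i) with hqdef
  have hS : 0 < Sn := sin_al_pos hm i
  have hC : 1 / 2 ≤ Cs := half_le_cos_al hm i
  have hC1 : Cs < 1 := cos_al_lt_one hm i
  have hsq : Sn ^ 2 + Cs ^ 2 = 1 := Real.sin_sq_add_cos_sq _
  have hab := A_ne_B (J := J) i i
  rcases le_or_gt 0 q with hq | hq
  · -- use the backward rotation
    have hD : 0 < Sn * p + (1 - Cs) * q := by
      have := mul_pos hS hp
      have := mul_nonneg (by linarith : 0 ≤ 1 - Cs) hq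
      linarith
    have hl : 0 ≤ Sn * p - Cs * q := by
      have h1 : 0 ≤ Sn * (Sn * p - Cs * q) := by
        have : Sn ^ 2 = (1 - Cs) * (1 + Cs) := by nlinarith
        nlinarith [mul_nonneg (by linarith : 0 ≤ Cs) (by linarith : 0 ≤ p - Cs * p - Sn * q),
          mul_pos (by linarith : 0 < 1 - Cs) hp]
      exact nonneg_of_mul_nonneg_right h1 hS
    set D := Sn * p + (1 - Cs) * q with hDdef
    refine ⟨((Sn * p - Cs * q) / D) • y + (q / D) • rot2 (A i) (B i) (-al m i) y,
      hK.conv hy (hK.rot_bwd hm hB hy) (div_nonneg hl hD.le) (div_nonneg hq hD.le) ?_, ?_, ?_, ?_⟩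
    · rw [← add_div, div_eq_one_iff_eq hD.ne']
      rw [hDdef]; ring
    · simp only [Pi.add_apply, Pi.smul_apply, smul_eq_mul, rot2_fst hab, Real.cos_neg,
        Real.sin_neg]
      rw [← hSn, ← hCs, ← hpdef, ← hqdef]
      have e : (Sn * p - Cs * q) / D * p + q / D * (Cs * p - -Sn * q) =
          Sn * (p ^ 2 + q ^ 2) / D := by
        field_simp
        ring
      rw [e, le_div_iff₀ hD]
      have := key_quad hS hq hp hsq hC hC1
      linarith
    · simp only [Pi.add_apply, Pi.smul_apply, smul_eq_mul, rot2_snd, Real.cos_neg, Real.sin_neg]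
      rw [← hSn, ← hCs, ← hpdef, ← hqdef]
      field_simp
      ring
    · intro d h1 h2
      simp only [Pi.add_apply, Pi.smul_apply, smul_eq_mul, rot2_other h1 h2]
      rw [← add_mul, ← add_div]
      have : (Sn * p - Cs * q + q) / D = 1 := by
        rw [div_eq_one_iff_eq hD.ne', hDdef]; ring
      rw [this, one_mul]
  · -- use the forward rotation
    have hq' : 0 ≤ -q := by linarith
    have hD : 0 < Sn * p + (1 - Cs) * (-q) := by
      have := mul_pos hS hp
      have := mul_nonneg (by linarith : 0 ≤ 1 - Cs) hq'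
      linarith
    have hl : 0 ≤ Sn * p + Cs * q := by
      have h1 : 0 ≤ Sn * (Sn * p + Cs * q) := by
        have : Sn ^ 2 = (1 - Cs) * (1 + Cs) := by nlinarith
        nlinarith [mul_nonneg (by linarith : 0 ≤ Cs) (by linarith : 0 ≤ p - Cs * p + Sn * q),
          mul_pos (by linarith : 0 < 1 - Cs) hp]
      exact nonneg_of_mul_nonneg_right h1 hS
    set D := Sn * p + (1 - Cs) * (-q) with hDdef
    refine ⟨((Sn * p + Cs * q) / D) • y + (-q / D) • rot2 (A i) (B i) (al m i) y,
      hK.conv hy (hK.rot_fwd hB hy) (div_nonneg hl hD.le) (div_nonneg hq' hD.le) ?_, ?_, ?_, ?_⟩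
    · rw [← add_div, div_eq_one_iff_eq hD.ne']
      rw [hDdef]; ring
    · simp only [Pi.add_apply, Pi.smul_apply, smul_eq_mul, rot2_fst hab]
      rw [← hSn, ← hCs, ← hpdef, ← hqdef]
      have e : (Sn * p + Cs * q) / D * p + -q / D * (Cs * p - Sn * q) =
          Sn * (p ^ 2 + q ^ 2) / D := by
        field_simp
        ring
      rw [e, le_div_iff₀ hD]
      have := key_quad hS hq' hp hsq hC hC1
      have e2 : (-q) ^ 2 = q ^ 2 := by ring
      rw [e2] at this
      linarith
    · simp only [Pi.add_apply, Pi.smul_apply, smul_eq_mul, rot2_snd]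
      rw [← hSn, ← hCs, ← hpdef, ← hqdef]
      field_simp
      ring
    · intro d h1 h2
      simp only [Pi.add_apply, Pi.smul_apply, smul_eq_mul, rot2_other h1 h2]
      rw [← add_mul, ← add_div]
      have : (Sn * p + Cs * q + -q) / D = 1 := by
        rw [div_eq_one_iff_eq hD.ne', hDdef]; ring
      rw [this, one_mul]

/-- **Section lemma**: up to the factor `12/13` in the first coordinate, the projection of `K`
along the second coordinate of an active plane lies in the section. -/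
theorem section_lemma (hm : ∀ i, 3 ≤ m i) {S : Finset (Ix J I)} {K : Set (Ix J I → ℝ)}
    (hK : InClass m S K) {i : I} (hB : B i ∈ S) {x : Ix J I → ℝ} (hx : x ∈ K) :
    update (update x (A i) (12 / 13 * x (A i))) (B i) 0 ∈ K := by
  have hab := A_ne_B (J := J) i i
  -- maximise the first coordinate over the plane slice through `x`
  let R : Set (Ix J I → ℝ) := K ∩ {y | ∀ d, d ≠ A i → d ≠ B i → y d = x d}
  have hRc : IsCompact R := by
    refine hK.comp.inter_right ?_
    have : {y : Ix J I → ℝ | ∀ d, d ≠ A i → d ≠ B i → y d = x d} =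
        ⋂ d, ⋂ _ : d ≠ A i, ⋂ _ : d ≠ B i, {y : Ix J I → ℝ | y d = x d} := by
      ext y; simp
    rw [this]
    exact isClosed_iInter fun d => isClosed_iInter fun _ => isClosed_iInter fun _ =>
      isClosed_eq (continuous_apply d) continuous_const
  have hxR : x ∈ R := ⟨hx, fun _ _ _ => rfl⟩
  obtain ⟨y, hyR, hmax⟩ := hRc.exists_isMaxOn ⟨x, hxR⟩
    ((continuous_apply (A i)).continuousOn (s := R))
  have hmax' : ∀ u ∈ R, u (A i) ≤ y (A i) := fun u hu => hmax hu
  have hrotR : ∀ (θ : ℝ) (u : Ix J I → ℝ), rot2 (A i) (B i) θ u ∈ K → u ∈ R →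
      rot2 (A i) (B i) θ u ∈ R := by
    intro θ u hu huR
    refine ⟨hu, fun d h1 h2 => ?_⟩
    rw [rot2_other h1 h2]
    exact huR.2 d h1 h2
  have hy := hyR.1
  have h1 := hmax' _ (hrotR _ _ (hK.rot_fwd hB hy) hyR)
  have h2 := hmax' _ (hrotR _ _ (hK.rot_bwd hm hB hy) hyR)
  have h3 := hmax' _ hxR
  have h4 := hmax' _ (hrotR _ _ (hK.rot_pi hm hB hx) hxR)
  rw [rot2_fst hab] at h1 h2 h4
  rw [Real.cos_neg, Real.sin_neg] at h2
  rw [Real.cos_pi, Real.sin_pi] at h4
  have h2' : Real.cos (al m i) * y (A i) + Real.sin (al m i) * y (B i) ≤ y (A i) := by linarith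
  have h4' : - x (A i) ≤ y (A i) := by linarith
  have hS := sin_al_pos hm i
  have hp0 : 0 ≤ y (A i) := by linarith
  rcases hp0.eq_or_lt with hp | hp
  · -- degenerate case
    have hq : y (B i) = 0 := by
      rw [← hp] at h1 h2'
      have e1 : 0 ≤ Real.sin (al m i) * y (B i) := by linarith
      have e2 : Real.sin (al m i) * y (B i) ≤ 0 := by linarith
      have e3 : Real.sin (al m i) * y (B i) = 0 := le_antisymm e2 e1
      exact (mul_eq_zero.1 e3).resolve_left hS.ne'
    have hxA : x (A i) = 0 := by linarith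
    have : update (update x (A i) (12 / 13 * x (A i))) (B i) 0 = y := by
      ext d
      by_cases e : d = B i
      · subst e; simp [hq]
      · by_cases e2 : d = A i
        · subst e2
          simp [hxA, ← hp]
        · simp [update_of_ne e, update_of_ne e2, hyR.2 d e2 e]
    rw [this]
    exact hy
  · obtain ⟨v, hvK, hv1, hv2, hv3⟩ := exists_axis_point hm hK hB hy hp h1 h2'
    -- average with the antipode
    have hv' := hK.rot_pi hm hB hvK
    set τ := v (A i) with hτ
    have hτpos : 0 < τ := by nlinarith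
    have habs : |12 / 13 * x (A i)| ≤ τ := by
      rw [abs_le]
      constructor <;> nlinarith
    have hl1 : 0 ≤ (τ + 12 / 13 * x (A i)) / (2 * τ) :=
      div_nonneg (by linarith [(abs_le.1 habs).1]) (by positivity)
    have hl2 : 0 ≤ (τ - 12 / 13 * x (A i)) / (2 * τ) :=
      div_nonneg (by linarith [(abs_le.1 habs).2]) (by positivity)
    have hsum : (τ + 12 / 13 * x (A i)) / (2 * τ) + (τ - 12 / 13 * x (A i)) / (2 * τ) = 1 := by
      field_simp
      ring
    have hmem := hK.conv hvK hv' hl1 hl2 hsum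
    convert hmem using 1
    ext d
    by_cases e : d = B i
    · subst e
      simp only [update_self, Pi.add_apply, Pi.smul_apply, smul_eq_mul, rot2_snd, hv2, Real.cos_pi,
        Real.sin_pi]
      ring
    · by_cases e2 : d = A i
      · subst e2
        simp only [update_of_ne e, update_self, Pi.add_apply, Pi.smul_apply, smul_eq_mul,
          rot2_fst hab, hv2, Real.cos_pi, Real.sin_pi]
        rw [← hτ]
        field_simp
        ring
      · simp only [update_of_ne e, update_of_ne e2, Pi.add_apply, Pi.smul_apply, smul_eq_mul,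
          rot2_other e2 e]
        rw [hv3 d e2 e, hyR.2 d e2 e, ← add_mul, hsum, one_mul]

end Vale.Agent.Lib.P248
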