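import Vale.Agent.Lib.P248.Vol

open MeasureTheory Set Function
open scoped ENNReal

set_option linter.unusedSectionVars false

noncomputable section
namespace Vale.Agent.Lib.P248

variable {J I : Type*} [Fintype J] [Fintype I] [DecidableEq J] [DecidableEq I]

/-- Coordinates: single coordinates `J` and planes `I × Bool`. -/
abbrev Ix (J I : Type*) := J ⊕ (I × Bool)

/-- first coordinate of the plane `i` -/
abbrev A (i : I) : Ix J I := Sum.inr (i, false)
/-- second coordinate of the plane `i` -/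
abbrev B (i : I) : Ix J I := Sum.inr (i, true)

lemma A_ne_B (i i' : I) : (A i : Ix J I) ≠ B i' := by simp [A, B]

/-- The basic angle `π / m i`. -/
def al (m : I → ℕ) (i : I) : ℝ := Real.pi / (m i : ℝ)

section trig
variable {m : I → ℕ} (hm : ∀ i, 3 ≤ m i) (i : I)
include hm

lemma al_pos : 0 < al m i := by
  have : (0:ℝ) < m i := by exact_mod_cast (by linarith [hm i] : 0 < m i)
  exact div_pos Real.pi_pos this

lemma al_le : al m i ≤ Real.pi / 3 := by
  have : (3:ℝ) ≤ m i := by exact_mod_cast hm i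
  exact div_le_div_of_nonneg_left Real.pi_pos.le (by norm_num) this

lemma sin_al_pos : 0 < Real.sin (al m i) :=
  Real.sin_pos_of_pos_of_lt_pi (al_pos hm i) (by linarith [al_le hm i, Real.pi_pos])

lemma half_le_cos_al : 1 / 2 ≤ Real.cos (al m i) := by
  have h := Real.cos_le_cos_of_nonneg_of_le_pi (al_pos hm i).le
    (by linarith [Real.pi_pos] : Real.pi / 3 ≤ Real.pi) (al_le hm i)
  rwa [Real.cos_pi_div_three] at h

lemma cos_al_lt_one : Real.cos (al m i) < 1 := by
  have h2 := Real.sin_sq_add_cos_sq (al m i)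
  have h3 := sin_al_pos hm i
  have h4 := half_le_cos_al hm i
  nlinarith

lemma one_add_cos_al_ne : 1 + Real.cos (al m i) ≠ 0 := by
  have h4 := half_le_cos_al hm i
  linarith

lemma one_add_cos_neg_al_ne : 1 + Real.cos (-al m i) ≠ 0 := by
  rw [Real.cos_neg]; exact one_add_cos_al_ne hm i

end trig

/-- The functionals cutting out the sector cone at the active set `S`. -/
def ell (m : I → ℕ) (S : Finset (Ix J I)) (c : Ix J I) (x : Ix J I → ℝ) : ℝ :=
  match c with
  | Sum.inl j => x (Sum.inl j)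
  | Sum.inr (i, true) => x (B i)
  | Sum.inr (i, false) =>
      if B i ∈ S then x (A i) * Real.sin (al m i) - x (B i) * Real.cos (al m i) else x (A i)

/-- Coordinates that are not the first coordinate of an active plane. -/
def Plain (S : Finset (Ix J I)) (c : Ix J I) : Prop := ∀ i, c = A i → B i ∉ S

lemma plain_or (S : Finset (Ix J I)) (c : Ix J I) : Plain S c ∨ ∃ i, c = A i ∧ B i ∈ S := by
  by_cases h : Plain S c
  · exact Or.inl h
  · right
    unfold Plain at h
    push Not at h
    exact h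

lemma ell_plain {m : I → ℕ} {S : Finset (Ix J I)} {c : Ix J I} (h : Plain S c) (x : Ix J I → ℝ) :
    ell m S c x = x c := by
  rcases c with j | ⟨i, b⟩
  · rfl
  · cases b
    · have := h i rfl
      simp [ell, this]
    · rfl

lemma ell_A {m : I → ℕ} {S : Finset (Ix J I)} {i : I} (h : B i ∈ S) (x : Ix J I → ℝ) :
    ell m S (A i) x = x (A i) * Real.sin (al m i) - x (B i) * Real.cos (al m i) := by
  simp [ell, h]

lemma ell_combo (m : I → ℕ) (S : Finset (Ix J I)) (c : Ix J I) (a b : ℝ) (u v : Ix J I → ℝ) :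
    ell m S c (a • u + b • v) = a * ell m S c u + b * ell m S c v := by
  rcases plain_or S c with h | ⟨i, rfl, h⟩
  · simp only [ell_plain h]; simp
  · simp only [ell_A h]; simp; ring

lemma continuous_ell (m : I → ℕ) (S : Finset (Ix J I)) (c : Ix J I) :
    Continuous (ell m S c) := by
  rcases plain_or S c with h | ⟨i, rfl, h⟩
  · have : ell m S c = fun x => x c := funext (ell_plain h)
    rw [this]; fun_prop
  · have : ell m S (A i) = fun x => x (A i) * Real.sin (al m i) - x (B i) * Real.cos (al m i) :=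
      funext (ell_A h)
    rw [this]; fun_prop

/-- The removal coordinate of a facet. -/
def rm (S : Finset (Ix J I)) (c : Ix J I) : Ix J I :=
  match c with
  | Sum.inl j => Sum.inl j
  | Sum.inr (i, true) => B i
  | Sum.inr (i, false) => if B i ∈ S then B i else A i

lemma rm_plain {S : Finset (Ix J I)} {c : Ix J I} (h : Plain S c) : rm S c = c := by
  rcases c with j | ⟨i, b⟩
  · rfl
  · cases b
    · have := h i rfl
      simp [rm, this]
    · rfl

lemma rm_A {S : Finset (Ix J I)} {i : I} (h : B i ∈ S) : rm S (A i) = B i := by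
  simp [rm, h]

lemma rm_mem {S : Finset (Ix J I)} {c : Ix J I} (hc : c ∈ S) : rm S c ∈ S := by
  rcases plain_or S c with h | ⟨i, rfl, h⟩
  · rwa [rm_plain h]
  · rwa [rm_A h]

/-- Symmetry carrying a coordinate facet onto the facet of `c`. -/
def gam (m : I → ℕ) (S : Finset (Ix J I)) (c : Ix J I) (x : Ix J I → ℝ) : Ix J I → ℝ :=
  match c with
  | Sum.inl _ => x
  | Sum.inr (_, true) => x
  | Sum.inr (i, false) => if B i ∈ S then rot2 (A i) (B i) (al m i) x else x

/-- Inverse of `gam`. -/
def gamInv (m : I → ℕ) (S : Finset (Ix J I)) (c : Ix J I) (x : Ix J I → ℝ) : Ix J I → ℝ :=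
  match c with
  | Sum.inl _ => x
  | Sum.inr (_, true) => x
  | Sum.inr (i, false) => if B i ∈ S then rot2 (A i) (B i) (-al m i) x else x

lemma gam_plain {m : I → ℕ} {S : Finset (Ix J I)} {c : Ix J I} (h : Plain S c) (x : Ix J I → ℝ) :
    gam m S c x = x := by
  rcases c with j | ⟨i, b⟩
  · rfl
  · cases b
    · have := h i rfl
      simp [gam, this]
    · rfl

lemma gamInv_plain {m : I → ℕ} {S : Finset (Ix J I)} {c : Ix J I} (h : Plain S c)
    (x : Ix J I → ℝ) : gamInv m S c x = x := by
  rcases c with j | ⟨i, b⟩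
  · rfl
  · cases b
    · have := h i rfl
      simp [gamInv, this]
    · rfl

lemma gam_A {m : I → ℕ} {S : Finset (Ix J I)} {i : I} (h : B i ∈ S) (x : Ix J I → ℝ) :
    gam m S (A i) x = rot2 (A i) (B i) (al m i) x := by
  simp [gam, h]

lemma gamInv_A {m : I → ℕ} {S : Finset (Ix J I)} {i : I} (h : B i ∈ S) (x : Ix J I → ℝ) :
    gamInv m S (A i) x = rot2 (A i) (B i) (-al m i) x := by
  simp [gamInv, h]

lemma gam_gamInv (m : I → ℕ) (S : Finset (Ix J I)) (c : Ix J I) (x : Ix J I → ℝ) :
    gam m S c (gamInv m S c x) = x := by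
  rcases plain_or S c with h | ⟨i, rfl, h⟩
  · rw [gam_plain h, gamInv_plain h]
  · rw [gam_A h, gamInv_A h, rot2_add (A_ne_B i i)]
    simp [rot2_zero (A_ne_B i i)]

lemma rot2_combo {ι : Type*} [Fintype ι] [DecidableEq ι] {a b' : ι} (hab : a ≠ b') (θ r s : ℝ) (u v : ι → ℝ) :
    rot2 a b' θ (r • u + s • v) = r • rot2 a b' θ u + s • rot2 a b' θ v := by
  ext d
  by_cases hda : d = a
  · subst hda
    simp only [Pi.add_apply, Pi.smul_apply, rot2_fst hab, smul_eq_mul]; ring
  · by_cases hdb : d = b'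
    · subst hdb
      simp only [Pi.add_apply, Pi.smul_apply, rot2_snd, smul_eq_mul]; ring
    · simp only [Pi.add_apply, Pi.smul_apply, rot2_other hda hdb]

lemma gam_combo (m : I → ℕ) (S : Finset (Ix J I)) (c : Ix J I) (r s : ℝ) (u v : Ix J I → ℝ) :
    gam m S c (r • u + s • v) = r • gam m S c u + s • gam m S c v := by
  rcases plain_or S c with h | ⟨i, rfl, h⟩
  · simp only [gam_plain h]
  · simp only [gam_A h]
    exact rot2_combo (A_ne_B i i) _ _ _ _ _

lemma continuous_gamInv (m : I → ℕ) (S : Finset (Ix J I)) (c : Ix J I) :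
    Continuous (gamInv m S c) := by
  rcases plain_or S c with h | ⟨i, rfl, h⟩
  · have : gamInv m S c = id := funext (gamInv_plain h)
    rw [this]; exact continuous_id
  · have : gamInv m S (A i) = rot2 (A i) (B i) (-al m i) := funext (gamInv_A h)
    rw [this]; exact continuous_rot2 _ _ _

/-- The open sector cone at the active set `S`. -/
def Cone (m : I → ℕ) (S : Finset (Ix J I)) : Set (Ix J I → ℝ) := {x | ∀ c ∈ S, 0 < ell m S c x}

lemma measurableSet_Cone (m : I → ℕ) (S : Finset (Ix J I)) : MeasurableSet (Cone m S) := by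
  have : Cone m S = ⋂ c ∈ S, {x | 0 < ell m S c x} := by
    ext x; simp [Cone]
  rw [this]
  refine Finset.measurableSet_biInter _ fun c _ => ?_
  exact measurableSet_lt measurable_const (continuous_ell m S c).measurable

/-- Active sets: if the second coordinate of a plane is active so is the first. -/
def Closed (S : Finset (Ix J I)) : Prop := ∀ i, B i ∈ S → A i ∈ S

lemma ell_erase_of_ne {m : I → ℕ} {S : Finset (Ix J I)} {r c' : Ix J I}
    (h : ∀ i, c' = A i → r ≠ B i) (y : Ix J I → ℝ) : ell m (S.erase r) c' y = ell m S c' y := by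
  rcases c' with j | ⟨i, b⟩
  · rfl
  · cases b
    · have hr : B i ≠ r := (h i rfl).symm
      have : (B i ∈ S.erase r) ↔ B i ∈ S := by simp [Finset.mem_erase, hr]
      simp only [ell, this]
    · rfl

lemma ell_rot2_other {m : I → ℕ} {S : Finset (Ix J I)} {i : I} {c' : Ix J I}
    (h1 : c' ≠ A i) (h2 : c' ≠ B i) (θ : ℝ) (y : Ix J I → ℝ) :
    ell m S c' (rot2 (A i) (B i) θ y) = ell m S c' y := by
  rcases plain_or S c' with h | ⟨i', rfl, h⟩
  · rw [ell_plain h, ell_plain h, rot2_other h1 h2]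
  · have hii' : i' ≠ i := by rintro rfl; exact h1 rfl
    rw [ell_A h, ell_A h, rot2_other h1 (A_ne_B _ _), rot2_other (by simp [hii']) (by simp [hii'])]

/-- The facet lemma. -/
lemma facet {m : I → ℕ} (hm : ∀ i, 3 ≤ m i) {S : Finset (Ix J I)} {c : Ix J I} (hc : c ∈ S)
    {y : Ix J I → ℝ} (hy : y ∈ Cone m (S.erase (rm S c))) (hy0 : y (rm S c) = 0) :
    ell m S c (gam m S c y) = 0 ∧ ∀ c' ∈ S, c' ≠ c → 0 < ell m S c' (gam m S c y) := by
  rcases plain_or S c with h | ⟨i, rfl, h⟩
  · rw [rm_plain h] at hy hy0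
    rw [gam_plain h]
    refine ⟨by rw [ell_plain h]; exact hy0, fun c' hc' hne => ?_⟩
    have h1 := hy c' (Finset.mem_erase.2 ⟨hne, hc'⟩)
    by_cases hA : ∃ i, c' = A i ∧ c = B i
    · obtain ⟨i, rfl, rfl⟩ := hA
      have hb : B i ∈ S := hc
      have hb' : B i ∉ S.erase (B i) := Finset.notMem_erase _ _
      rw [ell_A hb, hy0]
      have : ell m (S.erase (B i)) (A i) y = y (A i) := by simp [ell, hb']
      rw [this] at h1
      have := sin_al_pos hm i
      nlinarith
    · push Not at hA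
      rwa [ell_erase_of_ne (fun i hi hr => hA i hi hr)] at h1
  · rw [rm_A h] at hy hy0
    rw [gam_A h]
    have hb' : B i ∉ S.erase (B i) := Finset.notMem_erase _ _
    have hA : 0 < y (A i) := by
      have h1 := hy (A i) (Finset.mem_erase.2 ⟨A_ne_B i i, hc⟩)
      have : ell m (S.erase (B i)) (A i) y = y (A i) := by simp [ell, hb']
      rwa [this] at h1
    refine ⟨?_, fun c' hc' hne => ?_⟩
    · rw [ell_A h, rot2_fst (A_ne_B i i), rot2_snd, hy0]
      ring
    · by_cases hcB : c' = B i
      · subst hcB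
        have hpl : Plain S (B i) := fun i' hi' => by simp [B, A] at hi'
        rw [ell_plain hpl, rot2_snd, hy0]
        have := sin_al_pos hm i
        nlinarith [mul_pos this hA]
      · rw [ell_rot2_other hne hcB]
        have h1 := hy c' (Finset.mem_erase.2 ⟨hcB, hc'⟩)
        rwa [ell_erase_of_ne (fun i' hi' hr => ?_)] at h1
        have hi : i = i' := by simpa [B] using hr
        subst hi
        exact hne hi'

/-- Base of the pyramid for the removal coordinate `r`. -/
def Bas (m : I → ℕ) (S : Finset (Ix J I)) (L : Set (Ix J I → ℝ)) (r : Ix J I) : Set (Ix J I → ℝ) :=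
  L ∩ {x | x r = 0} ∩ Cone m (S.erase r)

lemma measurableSet_Bas (m : I → ℕ) (S : Finset (Ix J I)) {L : Set (Ix J I → ℝ)}
    (hL : MeasurableSet L) (r : Ix J I) : MeasurableSet (Bas m S L r) := by
  refine (hL.inter ?_).inter (measurableSet_Cone m _)
  exact measurableSet_eq_fun (measurable_pi_apply r) measurable_const

/-- Pyramid attached to the facet `c`. -/
def PP (m : I → ℕ) (S : Finset (Ix J I)) (z : Ix J I → ℝ) (L : Set (Ix J I → ℝ)) (c : Ix J I) :
    Set (Ix J I → ℝ) := by
  classical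
  exact if 0 < ell m S c z then
    gamInv m S c ⁻¹' Pyr (rm S c) (gamInv m S c z) (Bas m S L (rm S c)) else ∅

lemma measurableSet_PP (m : I → ℕ) (S : Finset (Ix J I)) (z : Ix J I → ℝ) {L : Set (Ix J I → ℝ)}
    (hL : MeasurableSet L) (c : Ix J I) : MeasurableSet (PP m S z L c) := by
  unfold PP
  split_ifs
  · exact (continuous_gamInv m S c).measurable
      (measurableSet_Pyr _ _ (measurableSet_Bas m S hL _))
  · exact MeasurableSet.empty

/-- Representation of points of the pyramid. -/
lemma PP_repr {m : I → ℕ} (hm : ∀ i, 3 ≤ m i) {S : Finset (Ix J I)} {z : Ix J I → ℝ} {L : Set (Ix J I → ℝ)}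
    {c : Ix J I} (hc : c ∈ S) (hinv : ∀ y ∈ L, gam m S c y ∈ L) {x : Ix J I → ℝ}
    (hx : x ∈ PP m S z L c) :
    0 < ell m S c z ∧ ∃ l : ℝ, 0 < l ∧ l < 1 ∧ ∃ y ∈ L, x = (1 - l) • y + l • z ∧
      ell m S c y = 0 ∧ ∀ c' ∈ S, c' ≠ c → 0 < ell m S c' y := by
  unfold PP at hx
  split_ifs at hx with hpos
  · refine ⟨hpos, ?_⟩
    obtain ⟨l, hl0, hl1, y, hy, hxy⟩ := Pyr_repr hx
    refine ⟨l, hl0, hl1, gam m S c y, hinv y hy.1.1, ?_, ?_⟩
    · have := congrArg (gam m S c) hxy
      rw [gam_gamInv, gam_combo, gam_gamInv] at this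
      exact this
    · exact facet hm hc hy.2 hy.1.2
  · exact absurd hx (by simp)

/-- Abstract consequence: the point lies in `L ∩ Cone`. -/
lemma PP_subset {m : I → ℕ} (hm : ∀ i, 3 ≤ m i) {S : Finset (Ix J I)} {z : Ix J I → ℝ} {L : Set (Ix J I → ℝ)}
    {c : Ix J I} (hc : c ∈ S) (hinv : ∀ y ∈ L, gam m S c y ∈ L) (hconv : Convex ℝ L)
    (hzL : z ∈ L) (hz : ∀ c' ∈ S, 0 ≤ ell m S c' z) : PP m S z L c ⊆ L ∩ Cone m S := by
  intro x hx
  obtain ⟨hpos, l, hl0, hl1, y, hy, hxy, hyc, hyc'⟩ := PP_repr hm hc hinv hx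
  subst hxy
  refine ⟨hconv hy hzL (by linarith) hl0.le (by ring), fun c' hc' => ?_⟩
  rw [ell_combo]
  by_cases h : c' = c
  · subst h
    rw [hyc]
    nlinarith
  · have h1 := hyc' c' hc' h
    have h2 := hz c' hc'
    have h3 : 0 < (1 - l) * ell m S c' y := mul_pos (by linarith) h1
    have h4 : 0 ≤ l * ell m S c' z := mul_nonneg hl0.le h2
    linarith

lemma PP_disjoint {m : I → ℕ} (hm : ∀ i, 3 ≤ m i) {S : Finset (Ix J I)} {z : Ix J I → ℝ} {L : Set (Ix J I → ℝ)}
    (hinv : ∀ c ∈ S, ∀ y ∈ L, gam m S c y ∈ L) {c c' : Ix J I} (hc : c ∈ S) (hc' : c' ∈ S)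
    (hne : c ≠ c') : Disjoint (PP m S z L c) (PP m S z L c') := by
  rw [Set.disjoint_left]
  intro x hx hx'
  obtain ⟨hpos, l, hl0, hl1, y, hy, hxy, hyc, hyc'⟩ := PP_repr hm hc (hinv c hc) hx
  obtain ⟨hpos', l', hl0', hl1', y', hy', hxy', hyc2, hyc2'⟩ := PP_repr hm hc' (hinv c' hc') hx'
  have e1 : (1 - l) • y + l • z = (1 - l') • y' + l' • z := by rw [← hxy, ← hxy']
  have e2 := congrArg (ell m S c) e1
  have e3 := congrArg (ell m S c') e1
  rw [ell_combo, ell_combo, hyc] at e2
  rw [ell_combo, ell_combo, hyc2] at e3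
  have h1 := hyc' c' hc' hne.symm
  have h2 := hyc2' c hc hne
  -- `(l - l') * ell c z = (1 - l') * ell c y' > 0`
  have h3 : 0 < (1 - l') * ell m S c y' := mul_pos (by linarith) h2
  have h4 : 0 < (1 - l) * ell m S c' y := mul_pos (by linarith) h1
  have h5 : l' < l := by
    by_contra hcon
    push Not at hcon
    nlinarith
  have h6 : l < l' := by
    by_contra hcon
    push Not at hcon
    nlinarith
  linarith

/-- Volume of the pyramid attached to the facet `c`. -/
lemma vol_PP {m : I → ℕ} (hm : ∀ i, 3 ≤ m i) {S : Finset (Ix J I)} {z : Ix J I → ℝ} {L : Set (Ix J I → ℝ)}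
    (hL : MeasurableSet L) {c : Ix J I} (hc : c ∈ S) (hzS : ∀ d, d ∉ S → z d = 0)
    (hz : 0 ≤ ell m S c z) (hcl : Closed S) :
    (S.card : ℝ≥0∞) * vol S (PP m S z L c) =
      ENNReal.ofReal (ell m S c z) * vol (S.erase (rm S c)) (Bas m S L (rm S c)) := by
  rcases hz.eq_or_lt with h0 | hpos
  · have : PP m S z L c = ∅ := by simp [PP, ← h0]
    rw [this, ← h0]
    simp [vol]
  · have hPP : PP m S z L c = gamInv m S c ⁻¹' Pyr (rm S c) (gamInv m S c z) (Bas m S L (rm S c)) := by
      simp [PP, hpos]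
    have hr := rm_mem hc
    have hins : insert (rm S c) (S.erase (rm S c)) = S := Finset.insert_erase hr
    have hcard : (S.erase (rm S c)).card + 1 = S.card := Finset.card_erase_add_one hr
    have hbase := measurableSet_Bas m S hL (rm S c)
    have hzS' : ∀ d, d ∉ insert (rm S c) (S.erase (rm S c)) → gamInv m S c z d = 0 := by
      rw [hins]
      intro d hd
      rcases plain_or S c with h | ⟨i, rfl, h⟩
      · rw [gamInv_plain h]; exact hzS d hd
      · have h1 : d ≠ A i := by rintro rfl; exact hd hc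
        have h2 : d ≠ B i := by rintro rfl; exact hd h
        rw [gamInv_A h, rot2_other h1 h2]
        exact hzS d hd
    have hheight : gamInv m S c z (rm S c) = ell m S c z ∨
        gamInv m S c z (rm S c) = - ell m S c z := by
      rcases plain_or S c with h | ⟨i, rfl, h⟩
      · left; rw [gamInv_plain h, rm_plain h, ell_plain h]
      · right
        rw [gamInv_A h, rm_A h, rot2_snd, ell_A h, Real.sin_neg, Real.cos_neg]
        ring
    have habs : |gamInv m S c z (rm S c)| = ell m S c z := by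
      rcases hheight with h | h <;> rw [h]
      · exact abs_of_pos hpos
      · rw [abs_neg]; exact abs_of_pos hpos
    have hne : gamInv m S c z (rm S c) ≠ 0 := by
      intro h
      rw [h, abs_zero] at habs
      linarith
    have hv := vol_Pyr (Finset.notMem_erase (rm S c) S) hzS' hne hbase
    rw [hcard, hins, habs] at hv
    rw [← hv, hPP]
    congr 1
    rcases plain_or S c with h | ⟨i, rfl, h⟩
    · have : gamInv m S c = id := funext (gamInv_plain h)
      rw [this]; rfl
    · have : gamInv m S (A i) = rot2 (A i) (B i) (-al m i) := funext (gamInv_A h)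
      rw [this]
      exact vol_rot2 hc h (A_ne_B i i) (one_add_cos_neg_al_ne hm i)
        (measurableSet_Pyr _ _ hbase)

/-- **The pyramid inequality.** -/
theorem pyramid_ineq {m : I → ℕ} (hm : ∀ i, 3 ≤ m i) {S : Finset (Ix J I)} (hcl : Closed S)
    {z : Ix J I → ℝ} {L : Set (Ix J I → ℝ)} (hL : MeasurableSet L) (hconv : Convex ℝ L)
    (hinv : ∀ c ∈ S, ∀ y ∈ L, gam m S c y ∈ L) (hzL : z ∈ L) (hzS : ∀ d, d ∉ S → z d = 0)
    (hz : ∀ c ∈ S, 0 ≤ ell m S c z) :
    ∑ c ∈ S, ENNReal.ofReal (ell m S c z) * vol (S.erase (rm S c)) (Bas m S L (rm S c)) ≤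
      (S.card : ℝ≥0∞) * vol S (L ∩ Cone m S) := by
  rw [Finset.sum_congr rfl (fun c hc => (vol_PP hm hL hc hzS (hz c hc) hcl).symm),
    ← Finset.mul_sum]
  gcongr
  unfold vol
  rw [← measure_biUnion_finset]
  · apply measure_mono
    intro y hy
    simp only [mem_iUnion, mem_preimage] at hy ⊢
    obtain ⟨c, hc, hyc⟩ := hy
    exact PP_subset hm hc (hinv c hc) hconv hzL hz hyc
  · intro c hc c' hc' hne
    exact (PP_disjoint hm hinv hc hc' hne).preimage _
  · intro c _
    exact measurable_emb S (measurableSet_PP m S z hL c)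

end Vale.Agent.Lib.P248
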