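import Vale.Agent.Lib.P248.Main

open MeasureTheory Set Function
open scoped ENNReal

set_option linter.unusedSectionVars false

noncomputable section
namespace Vale.Agent.Lib.P248

variable {J I : Type*} [Fintype J] [Fintype I] [DecidableEq J] [DecidableEq I]
variable {m : I → ℕ}

lemma vol_univ {ι : Type*} [Fintype ι] [DecidableEq ι] {X : Set (ι → ℝ)} (hX : MeasurableSet X) :
    vol Finset.univ X = volume X := by
  rw [vol_eq_lmarginal _ hX, lmarginal_univ, lintegral_indicator_one hX, volume_pi]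

lemma continuous_flipAt {ι : Type*} [Fintype ι] [DecidableEq ι] (c : ι) :
    Continuous (flipAt c : (ι → ℝ) → (ι → ℝ)) := by
  unfold flipAt
  exact continuous_id.update c (continuous_apply c).neg

lemma vol_flipAt {ι : Type*} [Fintype ι] [DecidableEq ι] {S : Finset ι} {c : ι} (hc : c ∈ S)
    {X : Set (ι → ℝ)} (hX : MeasurableSet X) : vol S (flipAt c ⁻¹' X) = vol S X := by
  have hX' : MeasurableSet (flipAt c ⁻¹' X) := (continuous_flipAt c).measurable hX
  rw [vol_eq_lmarginal_inner hc hX', vol_eq_lmarginal_inner hc hX]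
  congr 1
  ext x
  have hsh : ∀ s : ℝ, flipAt c (update x c s) = update x c (-s) := by
    intro s
    unfold flipAt
    simp
  calc ∫⁻ s : ℝ, (flipAt c ⁻¹' X).indicator 1 (update x c s)
      = ∫⁻ s : ℝ, X.indicator 1 (update x c (-s)) := by
        refine lintegral_congr fun s => ?_
        refine indicator_one_congr ?_
        rw [mem_preimage, hsh]
    _ = ∫⁻ s : ℝ, X.indicator 1 (update x c s) :=
        lintegral_neg_eq_self (fun s : ℝ => X.indicator (1 : (ι → ℝ) → ℝ≥0∞) (update x c s))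

lemma flipAt_flipAt {ι : Type*} [DecidableEq ι] (c : ι) (x : ι → ℝ) :
    flipAt c (flipAt c x) = x := by
  unfold flipAt
  simp

/-- Tiling by one sign flip. -/
lemma tile_flip {ι : Type*} [Fintype ι] [DecidableEq ι] {c : ι} {Y : Set (ι → ℝ)}
    (hY : MeasurableSet Y) (hinv : ∀ x ∈ Y, flipAt c x ∈ Y) :
    2 * vol Finset.univ (Y ∩ {x | 0 < x c}) ≤ vol Finset.univ Y := by
  have hm1 : MeasurableSet (Y ∩ {x : ι → ℝ | 0 < x c}) :=
    hY.inter (measurableSet_lt measurable_const (measurable_pi_apply c))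
  have hm2 : MeasurableSet (flipAt c ⁻¹' (Y ∩ {x : ι → ℝ | 0 < x c})) :=
    (continuous_flipAt c).measurable hm1
  have hd : Disjoint (Y ∩ {x : ι → ℝ | 0 < x c}) (flipAt c ⁻¹' (Y ∩ {x : ι → ℝ | 0 < x c})) := by
    rw [Set.disjoint_left]
    rintro x ⟨_, hx⟩ ⟨_, hx'⟩
    simp only [flipAt, mem_ofPred_eq, update_self] at hx hx'
    linarith
  have hsub : (Y ∩ {x : ι → ℝ | 0 < x c}) ∪ (flipAt c ⁻¹' (Y ∩ {x : ι → ℝ | 0 < x c})) ⊆ Y := by
    rintro x (hx | hx)
    · exact hx.1
    · have := hinv _ hx.1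
      rwa [flipAt_flipAt] at this
  calc 2 * vol Finset.univ (Y ∩ {x | 0 < x c})
      = vol Finset.univ (Y ∩ {x | 0 < x c}) + vol Finset.univ (flipAt c ⁻¹' (Y ∩ {x | 0 < x c})) := by
        rw [vol_flipAt (Finset.mem_univ c) hm1, two_mul]
    _ = vol Finset.univ ((Y ∩ {x | 0 < x c}) ∪ (flipAt c ⁻¹' (Y ∩ {x | 0 < x c}))) := by
        unfold vol
        rw [preimage_union, measure_union (hd.preimage _) (measurable_emb _ hm2)]
    _ ≤ vol Finset.univ Y := vol_mono _ hsub

/-- The sector of an active plane. -/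
def Sect (m : I → ℕ) (i : I) : Set (Ix J I → ℝ) :=
  {x | 0 < x (B i) ∧ 0 < x (A i) * Real.sin (al m i) - x (B i) * Real.cos (al m i)}

lemma measurableSet_Sect (m : I → ℕ) (i : I) : MeasurableSet (Sect (J := J) m i) := by
  have h1 : MeasurableSet {x : Ix J I → ℝ | 0 < x (B i)} :=
    measurableSet_lt measurable_const (measurable_pi_apply _)
  have h2 : MeasurableSet
      {x : Ix J I → ℝ | 0 < x (A i) * Real.sin (al m i) - x (B i) * Real.cos (al m i)} := by
    refine measurableSet_lt measurable_const ?_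
    fun_prop
  exact h1.inter h2

/-- Disjointness of the rotated sectors. -/
lemma sect_disjoint (hm : ∀ i, 3 ≤ m i) {i : I} {u : Ix J I → ℝ} (hu : u ∈ Sect m i) {j : ℕ}
    (h1 : 1 ≤ j) (h2 : j < 2 * m i) :
    rot2 (A i) (B i) ((j:ℝ) * al m i) u ∉ Sect m i := by
  rintro ⟨hB', hL'⟩
  obtain ⟨hb, hL⟩ := hu
  have hab := A_ne_B (J := J) i i
  rw [rot2_snd] at hB'
  rw [rot2_fst hab, rot2_snd] at hL'
  have hS := sin_al_pos hm i
  have hal := al_pos hm i
  have hma := m_mul_al hm i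
  set α := al m i with hα
  set a := u (A i)
  set b := u (B i)
  set β := (j:ℝ) * α with hβ
  set L := a * Real.sin α - b * Real.cos α with hLdef
  have hF : ∀ θ : ℝ, Real.sin α * (a * Real.sin θ + b * Real.cos θ) =
      Real.sin θ * L + b * Real.sin (θ + α) := by
    intro θ
    rw [Real.sin_add, hLdef]
    ring
  rcases Nat.lt_or_ge j (m i) with hj | hj
  · -- `j ≤ m - 1`: the functional `L'` is nonpositive
    have hj1 : ((j:ℝ) - 1) ≥ 0 := by
      have : (1:ℝ) ≤ j := by exact_mod_cast h1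
      linarith
    have hj2 : (j:ℝ) + 1 ≤ m i := by exact_mod_cast hj
    set δ := β - α with hδ
    have hδ0 : 0 ≤ δ := by
      have : δ = ((j:ℝ) - 1) * α := by rw [hδ, hβ]; ring
      rw [this]; positivity
    have hδ1 : δ + α ≤ Real.pi := by
      have e : δ + α = (j:ℝ) * α := by rw [hδ, hβ]; ring
      rw [e, ← hma]
      have := mul_le_mul_of_nonneg_right hj2 hal.le
      nlinarith
    have s1 : 0 ≤ Real.sin δ := Real.sin_nonneg_of_nonneg_of_le_pi hδ0 (by linarith)
    have s2 : 0 ≤ Real.sin (δ + α) :=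
      Real.sin_nonneg_of_nonneg_of_le_pi (by linarith) hδ1
    have h3 := hF δ
    have h4 : 0 ≤ Real.sin α * (a * Real.sin δ + b * Real.cos δ) := by
      rw [h3]
      have := mul_nonneg s1 hL.le
      have := mul_nonneg hb.le s2
      linarith
    have h5 : 0 ≤ a * Real.sin δ + b * Real.cos δ := nonneg_of_mul_nonneg_right h4 hS
    have h6 : (Real.cos β * a - Real.sin β * b) * Real.sin α -
        (Real.sin β * a + Real.cos β * b) * Real.cos α =
        - (a * Real.sin δ + b * Real.cos δ) := by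
      rw [hδ, Real.sin_sub, Real.cos_sub]
      ring
    linarith
  · -- `j ≥ m`: the second coordinate is nonpositive
    have hj1 : (m i : ℝ) ≤ j := by exact_mod_cast hj
    have hj2 : (j:ℝ) + 1 ≤ 2 * m i := by exact_mod_cast h2
    have hβ1 : Real.pi ≤ β := by
      rw [hβ, ← hma]
      exact mul_le_mul_of_nonneg_right hj1 hal.le
    have hβ2 : β + α ≤ 2 * Real.pi := by
      have e : β + α = ((j:ℝ) + 1) * α := by rw [hβ]; ring
      have e2 : 2 * Real.pi = (2 * (m i : ℝ)) * α := by rw [← hma]; ring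
      rw [e, e2]
      exact mul_le_mul_of_nonneg_right hj2 hal.le
    have s1 : Real.sin β ≤ 0 := by
      have := Real.sin_nonneg_of_nonneg_of_le_pi (x := β - Real.pi) (by linarith) (by linarith)
      rw [Real.sin_sub_pi] at this
      linarith
    have s2 : Real.sin (β + α) ≤ 0 := by
      have := Real.sin_nonneg_of_nonneg_of_le_pi (x := β + α - Real.pi) (by linarith) (by linarith)
      rw [Real.sin_sub_pi] at this
      linarith
    have h3 := hF β
    have h4 : Real.sin α * (a * Real.sin β + b * Real.cos β) ≤ 0 := by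
      rw [h3]
      have := mul_nonpos_of_nonpos_of_nonneg s1 hL.le
      have := mul_nonpos_of_nonneg_of_nonpos hb.le s2
      linarith
    have h5 : a * Real.sin β + b * Real.cos β ≤ 0 := by
      by_contra hcon
      push Not at hcon
      have := mul_pos hS hcon
      linarith
    have h6 : Real.sin β * a + Real.cos β * b = a * Real.sin β + b * Real.cos β := by ring
    linarith

lemma rot2_succ_preimage (i : I) (k : ℕ) (X : Set (Ix J I → ℝ)) :
    rot2 (A i) (B i) (((k + 1 : ℕ) : ℝ) * al m i) ⁻¹' X =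
      rot2 (A i) (B i) (al m i) ⁻¹' (rot2 (A i) (B i) ((k:ℝ) * al m i) ⁻¹' X) := by
  ext x
  simp only [mem_preimage]
  rw [rot2_add (A_ne_B i i)]
  have : (k:ℝ) * al m i + al m i = ((k + 1 : ℕ) : ℝ) * al m i := by push_cast; ring
  rw [this]

lemma vol_rot2_k (hm : ∀ i, 3 ≤ m i) (i : I) (k : ℕ) {X : Set (Ix J I → ℝ)}
    (hX : MeasurableSet X) :
    vol Finset.univ (rot2 (A i) (B i) ((k:ℝ) * al m i) ⁻¹' X) = vol Finset.univ X := by
  induction k with
  | zero =>
    have : rot2 (A i) (B i) (((0:ℕ):ℝ) * al m i) = (id : (Ix J I → ℝ) → (Ix J I → ℝ)) := by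
      ext1 x
      simp [rot2_zero (A_ne_B i i)]
    rw [this]
    rfl
  | succ k ih =>
    rw [rot2_succ_preimage, vol_rot2 (Finset.mem_univ _) (Finset.mem_univ _) (A_ne_B i i)
      (one_add_cos_al_ne hm i) ((continuous_rot2 _ _ _).measurable hX), ih]

/-- Tiling by a rotation group. -/
lemma tile_rot (hm : ∀ i, 3 ≤ m i) {i : I} {Y : Set (Ix J I → ℝ)} (hY : MeasurableSet Y)
    (hinv : ∀ k : ℕ, ∀ x ∈ Y, rot2 (A i) (B i) ((k:ℝ) * al m i) x ∈ Y) :
    ((2 * m i : ℕ) : ℝ≥0∞) * vol Finset.univ (Y ∩ Sect m i) ≤ vol Finset.univ Y := by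
  have hab := A_ne_B (J := J) i i
  have hmeas : MeasurableSet (Y ∩ Sect (J := J) m i) := hY.inter (measurableSet_Sect m i)
  let Z : ℕ → Set (Ix J I → ℝ) := fun k => rot2 (A i) (B i) ((k:ℝ) * al m i) ⁻¹' (Y ∩ Sect m i)
  have hZm : ∀ k, MeasurableSet (Z k) := fun k => (continuous_rot2 _ _ _).measurable hmeas
  have hZv : ∀ k, vol Finset.univ (Z k) = vol Finset.univ (Y ∩ Sect m i) :=
    fun k => vol_rot2_k hm i k hmeas
  have hZsub : ∀ k ∈ Finset.range (2 * m i), Z k ⊆ Y := by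
    intro k hk x hx
    have hk' : k ≤ 2 * m i := (Finset.mem_range.1 hk).le
    have h1 := hinv (2 * m i - k) _ hx.1
    rw [rot2_add hab] at h1
    have e : (((2 * m i - k : ℕ) : ℝ)) * al m i + (k:ℝ) * al m i = 0 + 2 * Real.pi := by
      rw [Nat.cast_sub hk']
      push_cast
      have := m_mul_al hm i
      linear_combination 2 * this
    rw [e, rot2_add_two_pi, rot2_zero hab] at h1
    exact h1
  have hdisj : ∀ k l, k < l → l < 2 * m i → Disjoint (Z k) (Z l) := by
    intro k l hkl hl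
    rw [Set.disjoint_left]
    intro x hx hx'
    have h1 : (1:ℕ) ≤ l - k := by omega
    have h2 : l - k < 2 * m i := by omega
    have h3 := sect_disjoint hm hx.2 h1 h2
    apply h3
    have e : rot2 (A i) (B i) (((l - k : ℕ) : ℝ) * al m i)
        (rot2 (A i) (B i) ((k:ℝ) * al m i) x) = rot2 (A i) (B i) ((l:ℝ) * al m i) x := by
      rw [rot2_add hab, Nat.cast_sub hkl.le]
      congr 1
      ring
    rw [e]
    exact hx'.2
  have hsum : ∑ k ∈ Finset.range (2 * m i), vol Finset.univ (Z k) ≤ vol Finset.univ Y := by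
    unfold vol
    rw [← measure_biUnion_finset]
    · apply measure_mono
      intro y hy
      simp only [mem_iUnion, mem_preimage] at hy ⊢
      obtain ⟨k, hk, hyk⟩ := hy
      exact hZsub k hk hyk
    · intro k hk l hl hne
      rcases lt_or_gt_of_ne hne with h | h
      · exact (hdisj k l h (Finset.mem_range.1 hl)).preimage _
      · exact ((hdisj l k h (Finset.mem_range.1 hk)).symm).preimage _
    · intro k _
      exact measurable_emb _ (hZm k)
  simp only [hZv, Finset.sum_const, Finset.card_range, nsmul_eq_mul] at hsum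
  exact hsum

lemma measurableSet_pos (P : Finset J) :
    MeasurableSet {x : Ix J I → ℝ | ∀ j ∈ P, 0 < x (Sum.inl j)} := by
  have : {x : Ix J I → ℝ | ∀ j ∈ P, 0 < x (Sum.inl j)} =
      ⋂ j ∈ P, {x : Ix J I → ℝ | 0 < x (Sum.inl j)} := by
    ext x; simp
  rw [this]
  exact Finset.measurableSet_biInter _ fun j _ =>
    measurableSet_lt measurable_const (measurable_pi_apply _)

lemma measurableSet_secs (m : I → ℕ) (Q : Finset I) :
    MeasurableSet {x : Ix J I → ℝ | ∀ i ∈ Q, x ∈ Sect m i} := by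
  have : {x : Ix J I → ℝ | ∀ i ∈ Q, x ∈ Sect m i} = ⋂ i ∈ Q, Sect m i := by
    ext x; simp
  rw [this]
  exact Finset.measurableSet_biInter _ fun i _ => measurableSet_Sect m i

lemma tile_flips {Y : Set (Ix J I → ℝ)} (hY : MeasurableSet Y)
    (hinv : ∀ j, ∀ x ∈ Y, flipAt (Sum.inl j) x ∈ Y) (P : Finset J) :
    ENNReal.ofReal (∏ _j ∈ P, (2:ℝ)) * vol Finset.univ (Y ∩ {x | ∀ j ∈ P, 0 < x (Sum.inl j)}) ≤
      vol Finset.univ Y := by
  induction P using Finset.induction_on with
  | empty =>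
    have : Y ∩ {x : Ix J I → ℝ | ∀ j ∈ (∅ : Finset J), 0 < x (Sum.inl j)} = Y := by
      ext x; simp
    rw [this]
    simp
  | insert j0 P hj0 ih =>
    set Y' := Y ∩ {x : Ix J I → ℝ | ∀ j ∈ P, 0 < x (Sum.inl j)} with hY'
    have hY'm : MeasurableSet Y' := hY.inter (measurableSet_pos P)
    have hinv' : ∀ x ∈ Y', flipAt (Sum.inl j0 : Ix J I) x ∈ Y' := by
      intro x hx
      refine ⟨hinv j0 x hx.1, fun j hj => ?_⟩
      have hne : (Sum.inl j : Ix J I) ≠ Sum.inl j0 := by
        intro e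
        have : j = j0 := Sum.inl.inj e
        exact hj0 (this ▸ hj)
      rw [flipAt, update_of_ne hne]
      exact hx.2 j hj
    have h1 := tile_flip hY'm hinv'
    have h2 : Y ∩ {x : Ix J I → ℝ | ∀ j ∈ insert j0 P, 0 < x (Sum.inl j)} =
        Y' ∩ {x | 0 < x (Sum.inl j0)} := by
      ext x
      simp only [hY', mem_inter_iff, mem_ofPred_eq, Finset.mem_insert, forall_eq_or_imp]
      tauto
    rw [h2, Finset.prod_insert hj0, ENNReal.ofReal_mul (by norm_num)]
    have h3 : ENNReal.ofReal 2 = 2 := by simp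
    rw [h3]
    calc 2 * ENNReal.ofReal (∏ _j ∈ P, (2:ℝ)) * vol Finset.univ (Y' ∩ {x | 0 < x (Sum.inl j0)})
        = ENNReal.ofReal (∏ _j ∈ P, (2:ℝ)) * (2 * vol Finset.univ (Y' ∩ {x | 0 < x (Sum.inl j0)})) := by
          ring
      _ ≤ ENNReal.ofReal (∏ _j ∈ P, (2:ℝ)) * vol Finset.univ Y' := by gcongr
      _ ≤ vol Finset.univ Y := ih

lemma tile_rots (hm : ∀ i, 3 ≤ m i) {Y : Set (Ix J I → ℝ)} (hY : MeasurableSet Y)
    (hinv : ∀ i, ∀ k : ℕ, ∀ x ∈ Y, rot2 (A i) (B i) ((k:ℝ) * al m i) x ∈ Y) (Q : Finset I) :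
    ENNReal.ofReal (∏ i ∈ Q, ((m i : ℝ) * 2)) * vol Finset.univ (Y ∩ {x | ∀ i ∈ Q, x ∈ Sect m i}) ≤
      vol Finset.univ Y := by
  induction Q using Finset.induction_on with
  | empty =>
    have : Y ∩ {x : Ix J I → ℝ | ∀ i ∈ (∅ : Finset I), x ∈ Sect m i} = Y := by
      ext x; simp
    rw [this]
    simp
  | insert i0 Q hi0 ih =>
    set Y' := Y ∩ {x : Ix J I → ℝ | ∀ i ∈ Q, x ∈ Sect m i} with hY'
    have hY'm : MeasurableSet Y' := hY.inter (measurableSet_secs m Q)
    have hinv' : ∀ k : ℕ, ∀ x ∈ Y', rot2 (A i0) (B i0) ((k:ℝ) * al m i0) x ∈ Y' := by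
      intro k x hx
      refine ⟨hinv i0 k x hx.1, fun i hi => ?_⟩
      have hne : i ≠ i0 := fun e => hi0 (e ▸ hi)
      have e1 : (A i : Ix J I) ≠ A i0 := by simp [hne]
      have e2 : (A i : Ix J I) ≠ B i0 := A_ne_B _ _
      have e3 : (B i : Ix J I) ≠ A i0 := (A_ne_B _ _).symm
      have e4 : (B i : Ix J I) ≠ B i0 := by simp [hne]
      have := hx.2 i hi
      unfold Sect at this ⊢
      simp only [mem_ofPred_eq, rot2_other e1 e2, rot2_other e3 e4]
      exact this
    have h1 := tile_rot hm hY'm hinv'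
    have h2 : Y ∩ {x : Ix J I → ℝ | ∀ i ∈ insert i0 Q, x ∈ Sect m i} = Y' ∩ Sect m i0 := by
      ext x
      simp only [hY', mem_inter_iff, mem_ofPred_eq, Finset.mem_insert, forall_eq_or_imp]
      tauto
    rw [h2, Finset.prod_insert hi0, ENNReal.ofReal_mul (by positivity)]
    have h3 : ENNReal.ofReal ((m i0 : ℝ) * 2) = ((2 * m i0 : ℕ) : ℝ≥0∞) := by
      rw [← ENNReal.ofReal_natCast]
      congr 1
      push_cast
      ring
    rw [h3]
    calc ((2 * m i0 : ℕ) : ℝ≥0∞) * ENNReal.ofReal (∏ i ∈ Q, ((m i : ℝ) * 2)) * vol Finset.univ (Y' ∩ Sect m i0)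
        = ENNReal.ofReal (∏ i ∈ Q, ((m i : ℝ) * 2)) * (((2 * m i0 : ℕ) : ℝ≥0∞) * vol Finset.univ (Y' ∩ Sect m i0)) := by
          ring
      _ ≤ ENNReal.ofReal (∏ i ∈ Q, ((m i : ℝ) * 2)) * vol Finset.univ Y' := by gcongr
      _ ≤ vol Finset.univ Y := ih

lemma GG_univ (m : I → ℕ) :
    GG m (Finset.univ : Finset (Ix J I)) = (∏ i : I, ((m i : ℝ) * 2)) * ∏ _j : J, (2:ℝ) := by
  unfold GG
  rw [Fintype.prod_sum_type, Fintype.prod_prod_type, mul_comm]
  congr 1
  refine Finset.prod_congr rfl fun i _ => ?_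
  rw [Fintype.prod_bool]
  rfl

lemma tile_all (hm : ∀ i, 3 ≤ m i) {Y : Set (Ix J I → ℝ)} (hY : MeasurableSet Y)
    (hflip : ∀ j, ∀ x ∈ Y, flipAt (Sum.inl j) x ∈ Y)
    (hrot : ∀ i, ∀ k : ℕ, ∀ x ∈ Y, rot2 (A i) (B i) ((k:ℝ) * al m i) x ∈ Y) :
    ENNReal.ofReal (GG m (Finset.univ : Finset (Ix J I))) *
      vol Finset.univ (Y ∩ Cone m Finset.univ) ≤ vol Finset.univ Y := by
  have h1 := tile_rots hm hY hrot Finset.univ
  set Y' := Y ∩ {x : Ix J I → ℝ | ∀ i ∈ (Finset.univ : Finset I), x ∈ Sect m i} with hY'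
  have hY'm : MeasurableSet Y' := hY.inter (measurableSet_secs m _)
  have hinv' : ∀ j, ∀ x ∈ Y', flipAt (Sum.inl j) x ∈ Y' := by
    intro j x hx
    refine ⟨hflip j x hx.1, fun i hi => ?_⟩
    have := hx.2 i hi
    unfold Sect at this ⊢
    simp only [mem_ofPred_eq, flipAt]
    have e1 : (A i : Ix J I) ≠ Sum.inl j := by simp [A]
    have e2 : (B i : Ix J I) ≠ Sum.inl j := by simp [B]
    rw [update_of_ne e1, update_of_ne e2]
    exact this
  have h2 := tile_flips hY'm hinv' Finset.univ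
  have h3 : Y' ∩ {x | ∀ j ∈ (Finset.univ : Finset J), 0 < x (Sum.inl j)} =
      Y ∩ Cone m Finset.univ := by
    ext x
    simp only [hY', mem_inter_iff, mem_ofPred_eq, Finset.mem_univ, forall_true_left, Cone, Sect]
    constructor
    · rintro ⟨⟨hxY, hsec⟩, hpos⟩
      refine ⟨hxY, fun c => ?_⟩
      rcases c with j | ⟨i, b⟩
      · exact hpos j
      · cases b
        · rw [ell_A (Finset.mem_univ _)]
          exact (hsec i).2
        · exact (hsec i).1
    · rintro ⟨hxY, hc⟩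
      refine ⟨⟨hxY, fun i => ⟨hc (B i), ?_⟩⟩, fun j => hc (Sum.inl j)⟩
      have := hc (A i)
      rwa [ell_A (Finset.mem_univ _)] at this
  rw [h3] at h2
  rw [GG_univ, ENNReal.ofReal_mul (Finset.prod_nonneg fun i _ => by positivity)]
  calc ENNReal.ofReal (∏ i : I, ((m i : ℝ) * 2)) * ENNReal.ofReal (∏ _j : J, (2:ℝ)) *
        vol Finset.univ (Y ∩ Cone m Finset.univ)
      = ENNReal.ofReal (∏ i : I, ((m i : ℝ) * 2)) * (ENNReal.ofReal (∏ _j : J, (2:ℝ)) *
        vol Finset.univ (Y ∩ Cone m Finset.univ)) := by ring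
    _ ≤ ENNReal.ofReal (∏ i : I, ((m i : ℝ) * 2)) * vol Finset.univ Y' := by gcongr
    _ ≤ vol Finset.univ Y := h1

lemma dot_flipAt {ι : Type*} [Fintype ι] [DecidableEq ι] (c : ι) (x y : ι → ℝ) :
    dot (flipAt c x) y = dot x (flipAt c y) := by
  rw [flipAt, dot_update_left, dot_comm x (flipAt c y), flipAt, dot_update_left, dot_comm y x]
  ring

lemma InClass.rot_neg_k {S : Finset (Ix J I)} {K : Set (Ix J I → ℝ)} (hm : ∀ i, 3 ≤ m i)
    (hK : InClass m S K) {i : I} (h : B i ∈ S) (k : ℕ) {x : Ix J I → ℝ} (hx : x ∈ K) :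
    rot2 (A i) (B i) (-((k:ℝ) * al m i)) x ∈ K := by
  induction k with
  | zero =>
    simpa [rot2_zero (A_ne_B i i)] using hx
  | succ k ih =>
    have h1 := hK.rot_bwd hm h ih
    rw [rot2_add (A_ne_B i i)] at h1
    have e : -al m i + -((k:ℝ) * al m i) = -(((k + 1 : ℕ) : ℝ) * al m i) := by
      push_cast
      ring
    rwa [e] at h1

lemma closed_univ : Closed (Finset.univ : Finset (Ix J I)) := fun _ _ => Finset.mem_univ _

/-- **Final inequality in the class.** -/
theorem final_ineq (hm : ∀ i, 3 ≤ m i) {K : Set (Ix J I → ℝ)}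
    (hK : InClass m Finset.univ K) :
    (4:ℝ) ^ (Fintype.card (Ix J I)) / ((Fintype.card (Ix J I)).factorial : ℝ) ≤
      (volume K).toReal * (volume (Polar Finset.univ K)).toReal ∧
    (Nonempty I → (4:ℝ) ^ (Fintype.card (Ix J I)) / ((Fintype.card (Ix J I)).factorial : ℝ) <
      (volume K).toReal * (volume (Polar Finset.univ K)).toReal) := by
  have hmain := mainIneq hm Finset.univ closed_univ K hK
  have hstrict : Nonempty I → TT m Finset.univ < QQ m Finset.univ K := fun ⟨i⟩ =>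
    mainStrict hm closed_univ hK (Finset.mem_univ (B i))
  have hKm : MeasurableSet K := hK.comp.measurableSet
  have hPm := measurableSet_Polar (Finset.univ : Finset (Ix J I)) K
  have hSingle : ∀ j : J, Single (Finset.univ : Finset (Ix J I)) (Sum.inl j) :=
    fun j => Or.inl ⟨j, rfl⟩
  have t1 := tile_all hm hKm (fun j x hx => hK.flip _ (Finset.mem_univ _) (hSingle j) x hx)
    (fun i k x hx => hK.rot i (Finset.mem_univ _) k x hx)
  have t2 := tile_all hm hPm
    (fun j y hy => by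
      refine ⟨fun d hd => absurd (Finset.mem_univ d) hd, fun x hx => ?_⟩
      rw [← dot_flipAt]
      exact hy.2 _ (hK.flip _ (Finset.mem_univ _) (hSingle j) x hx))
    (fun i k y hy => by
      refine ⟨fun d hd => absurd (Finset.mem_univ d) hd, fun x hx => ?_⟩
      have := dot_rot2 (A_ne_B i i) (-((k:ℝ) * al m i)) x y
      rw [neg_neg] at this
      rw [← this]
      exact hy.2 _ (hK.rot_neg_k hm (Finset.mem_univ _) k hx))
  obtain ⟨RK, hRK⟩ := hK.bounded
  obtain ⟨Rp, hRp⟩ := polar_bound hK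
  have hfin1 : vol Finset.univ K ≠ ⊤ := (vol_lt_top _ hRK).ne
  have hfin2 : vol Finset.univ (Polar Finset.univ K) ≠ ⊤ := (vol_lt_top _ hRp).ne
  have hG := GG_pos hm (Finset.univ : Finset (Ix J I))
  have r1 := ENNReal.toReal_mono hfin1 t1
  have r2 := ENNReal.toReal_mono hfin2 t2
  rw [ENNReal.toReal_mul, ENNReal.toReal_ofReal hG.le] at r1 r2
  rw [vol_univ hKm] at r1
  rw [vol_univ hPm] at r2
  unfold QQ at hmain hstrict
  set v := (vol Finset.univ (K ∩ Cone m Finset.univ)).toReal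
  set v' := (vol Finset.univ (Polar Finset.univ K ∩ Cone m Finset.univ)).toReal
  set G := GG m (Finset.univ : Finset (Ix J I))
  have hv : 0 ≤ v := ENNReal.toReal_nonneg
  have hv' : 0 ≤ v' := ENNReal.toReal_nonneg
  have hT : TT m (Finset.univ : Finset (Ix J I)) * G ^ 2 =
      (4:ℝ) ^ (Fintype.card (Ix J I)) / ((Fintype.card (Ix J I)).factorial : ℝ) := by
    unfold TT
    rw [Finset.card_univ]
    have : ((Fintype.card (Ix J I)).factorial : ℝ) ≠ 0 := by positivity
    have hG2 : GG m (Finset.univ : Finset (Ix J I)) = G := rfl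
    rw [hG2]
    field_simp
  rw [← hT]
  have hup : v * v' * G ^ 2 ≤ (volume K).toReal * (volume (Polar Finset.univ K)).toReal :=
    calc v * v' * G ^ 2 = (G * v) * (G * v') := by ring
      _ ≤ (volume K).toReal * (volume (Polar Finset.univ K)).toReal :=
        mul_le_mul r1 r2 (by positivity) ENNReal.toReal_nonneg
  refine ⟨le_trans ?_ hup, fun hI => lt_of_lt_of_le ?_ hup⟩
  · gcongr
  · have h2 := hstrict hI
    have h3 : 0 < G ^ 2 := by positivity
    exact mul_lt_mul_of_pos_right h2 h3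

end Vale.Agent.Lib.P248
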