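import Vale.Agent.Lib.P248.Tile

open MeasureTheory Set Function
open scoped ENNReal Topology

set_option linter.unusedSectionVars false

noncomputable section
namespace Vale.Agent.Lib.P248

variable {J I : Type*} [Fintype J] [Fintype I] [DecidableEq J] [DecidableEq I]
variable {m : I → ℕ}

lemma rot_k_of_rot {K : Set (Ix J I → ℝ)} {i : I}
    (hrot : ∀ x ∈ K, rot2 (A i) (B i) (al m i) x ∈ K) (k : ℕ) {x : Ix J I → ℝ} (hx : x ∈ K) :
    rot2 (A i) (B i) ((k:ℝ) * al m i) x ∈ K := by
  induction k with
  | zero => simpa [rot2_zero (A_ne_B i i)] using hx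
  | succ k ih =>
    have h1 := hrot _ ih
    rw [rot2_add (A_ne_B i i)] at h1
    have e : al m i + (k:ℝ) * al m i = ((k + 1 : ℕ) : ℝ) * al m i := by
      push_cast
      ring
    rwa [e] at h1

/-- The body is origin symmetric. -/
lemma neg_mem_of_symm (hm : ∀ i, 3 ≤ m i) {K : Set (Ix J I → ℝ)}
    (hflip : ∀ j, ∀ x ∈ K, flipAt (Sum.inl j) x ∈ K)
    (hrot : ∀ i, ∀ x ∈ K, rot2 (A i) (B i) (al m i) x ∈ K) {x : Ix J I → ℝ} (hx : x ∈ K) :
    -x ∈ K := by
  have hpi : ∀ i, ∀ x ∈ K, rot2 (A i) (B i) Real.pi x ∈ K := by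
    intro i x hx
    have := rot_k_of_rot (hrot i) (m i) hx
    rwa [m_mul_al hm] at this
  -- negate the coordinates of `J`
  have h1 : ∀ P : Finset J, ∃ y ∈ K, (∀ j, y (Sum.inl j) =
      if j ∈ P then - x (Sum.inl j) else x (Sum.inl j)) ∧ ∀ q : I × Bool, y (Sum.inr q) = x (Sum.inr q) := by
    intro P
    induction P using Finset.induction_on with
    | empty => exact ⟨x, hx, by simp, by simp⟩
    | insert j0 P hj0 ih =>
      obtain ⟨y, hy, hy1, hy2⟩ := ih
      refine ⟨flipAt (Sum.inl j0) y, hflip j0 y hy, fun j => ?_, fun q => ?_⟩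
      · by_cases e : j = j0
        · subst e
          simp [flipAt, hy1, hj0]
        · have hne : (Sum.inl j : Ix J I) ≠ Sum.inl j0 := by simp [e]
          simp [flipAt, update_of_ne hne, hy1, e]
      · have hne : (Sum.inr q : Ix J I) ≠ Sum.inl j0 := by simp
        simp [flipAt, update_of_ne hne, hy2]
  obtain ⟨y0, hy0, hy01, hy02⟩ := h1 Finset.univ
  -- negate the planes
  have h2 : ∀ Q : Finset I, ∃ y ∈ K, (∀ j, y (Sum.inl j) = - x (Sum.inl j)) ∧
      ∀ (i : I) (b : Bool), y (Sum.inr (i, b)) =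
        if i ∈ Q then - x (Sum.inr (i, b)) else x (Sum.inr (i, b)) := by
    intro Q
    induction Q using Finset.induction_on with
    | empty =>
      exact ⟨y0, hy0, fun j => by simpa using hy01 j, fun i b => by simpa using hy02 (i, b)⟩
    | insert i0 Q hi0 ih =>
      obtain ⟨y, hy, hy1, hy2⟩ := ih
      refine ⟨rot2 (A i0) (B i0) Real.pi y, hpi i0 y hy, fun j => ?_, fun i b => ?_⟩
      · rw [rot2_other (by simp [A]) (by simp [B])]
        exact hy1 j
      · by_cases e : i = i0
        · subst e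
          cases b
          · show rot2 (A i) (B i) Real.pi y (A i) = _
            rw [rot2_fst (A_ne_B i i), Real.cos_pi, Real.sin_pi]
            have := hy2 i false
            simp only [A] at this ⊢
            rw [this]
            simp [hi0]
          · show rot2 (A i) (B i) Real.pi y (B i) = _
            rw [rot2_snd, Real.cos_pi, Real.sin_pi]
            have := hy2 i true
            simp only [B] at this ⊢
            rw [this]
            simp [hi0]
        · have e1 : (Sum.inr (i, b) : Ix J I) ≠ A i0 := by simp [A, e]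
          have e2 : (Sum.inr (i, b) : Ix J I) ≠ B i0 := by simp [B, e]
          rw [rot2_other e1 e2, hy2]
          simp [e]
  obtain ⟨y, hy, hy1, hy2⟩ := h2 Finset.univ
  have : y = -x := by
    ext d
    rcases d with j | ⟨i, b⟩
    · simpa using hy1 j
    · simpa using hy2 i b
  rwa [← this]

/-- Bodies satisfying the hypotheses belong to the class. -/
lemma inClass_of_body (hm : ∀ i, 3 ≤ m i) {K : Set (Ix J I → ℝ)} (hconv : Convex ℝ K)
    (hcomp : IsCompact K) (hint : (interior K).Nonempty)
    (hflip : ∀ j, ∀ x ∈ K, flipAt (Sum.inl j) x ∈ K)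
    (hrot : ∀ i, ∀ x ∈ K, rot2 (A i) (B i) (al m i) x ∈ K) :
    InClass m Finset.univ K := by
  have h0 : (0 : Ix J I → ℝ) ∈ interior K := by
    obtain ⟨x, hx⟩ := hint
    have hx' : -x ∈ interior K := by
      have hn : K ∈ 𝓝 x := mem_interior_iff_mem_nhds.1 hx
      have hc : Filter.Tendsto (fun y : Ix J I → ℝ => -y) (𝓝 (-x)) (𝓝 x) := by
        have := (continuous_neg (G := Ix J I → ℝ)).tendsto (-x)
        simpa using this
      have h1 : {y : Ix J I → ℝ | -y ∈ K} ∈ 𝓝 (-x) := hc hn
      refine mem_interior_iff_mem_nhds.2 (Filter.mem_of_superset h1 fun y hy => ?_)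
      have := neg_mem_of_symm hm hflip hrot hy
      simpa using this
    have := hconv.interior hx hx' (by norm_num : (0:ℝ) ≤ 1 / 2) (by norm_num : (0:ℝ) ≤ 1 / 2)
      (by norm_num)
    convert this using 1
    ext d
    simp
  obtain ⟨ε, hε, hball⟩ := Metric.mem_nhds_iff.1 (mem_interior_iff_mem_nhds.1 h0)
  refine
    { conv := hconv
      comp := hcomp
      supp := fun _ _ d hd => absurd (Finset.mem_univ d) hd
      absorb := ⟨ε / 2, by positivity, fun x _ hx => hball ?_⟩
      flip := ?_
      rot := fun i _ k x hx => rot_k_of_rot (hrot i) k hx }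
  · rw [Metric.mem_ball, dist_zero_right]
    have : ‖x‖ ≤ ε / 2 := (pi_norm_le_iff_of_nonneg (by positivity)).2 fun d => hx d
    linarith
  · intro c _ hs x hx
    rcases hs with ⟨j, rfl⟩ | ⟨i, _, h⟩
    · exact hflip j x hx
    · exact absurd (Finset.mem_univ _) h

end Vale.Agent.Lib.P248
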