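import Mathlib

open MeasureTheory Set Function
open scoped ENNReal

set_option linter.unusedSectionVars false

noncomputable section
namespace Vale.Agent.Lib.P248

variable {ι : Type*} [Fintype ι] [DecidableEq ι]

lemma indicator_one_congr {α : Type*} {x y : α} {X Y : Set α} (h : x ∈ X ↔ y ∈ Y) :
    X.indicator (1 : α → ℝ≥0∞) x = Y.indicator (1 : α → ℝ≥0∞) y := by
  by_cases hx : x ∈ X
  · simp [hx, h.1 hx]
  · simp [hx, mt h.2 hx]

/-- The `S`-dimensional volume of the part of `X` supported on the coordinates in `S`. -/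
def vol (S : Finset ι) (X : Set (ι → ℝ)) : ℝ≥0∞ :=
  volume ((fun y : S → ℝ => updateFinset (0 : ι → ℝ) S y) ⁻¹' X)

lemma measurable_emb (S : Finset ι) :
    Measurable (fun y : S → ℝ => updateFinset (0 : ι → ℝ) S y) :=
  measurable_updateFinset

lemma vol_mono (S : Finset ι) {X Y : Set (ι → ℝ)} (h : X ⊆ Y) : vol S X ≤ vol S Y :=
  measure_mono (preimage_mono h)

lemma vol_eq_lmarginal (S : Finset ι) {X : Set (ι → ℝ)} (hX : MeasurableSet X) :
    vol S X = lmarginal (fun _ => (volume : Measure ℝ)) S (X.indicator 1) 0 := by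
  unfold vol lmarginal
  rw [volume_pi, ← lintegral_indicator_one (measurable_emb S hX)]
  rfl

/-- Fubini: integrate out one coordinate. -/
lemma vol_insert {S : Finset ι} {c : ι} (hc : c ∉ S) {X : Set (ι → ℝ)} (hX : MeasurableSet X) :
    vol (insert c S) X = ∫⁻ t : ℝ, vol S {x | update x c t ∈ X} := by
  have hm : Measurable (X.indicator (1 : (ι → ℝ) → ℝ≥0∞)) := measurable_one.indicator hX
  rw [vol_eq_lmarginal _ hX, lmarginal_insert _ hm hc]
  refine lintegral_congr fun t => ?_
  have hX' : MeasurableSet {x : ι → ℝ | update x c t ∈ X} :=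
    (measurable_update_left hX)
  rw [vol_eq_lmarginal _ hX']
  unfold lmarginal
  refine lintegral_congr fun y => ?_
  have : update (updateFinset (0 : ι → ℝ) S y) c t = updateFinset (update (0 : ι → ℝ) c t) S y := by
    ext d
    by_cases hd : d = c
    · subst hd
      simp [updateFinset, hc]
    · by_cases hdS : d ∈ S
      · simp [updateFinset, hdS, hd]
      · simp [updateFinset, hdS, hd]
  refine indicator_one_congr ?_
  rw [← this]; rfl

/-- One-coordinate-first Fubini used for shears and anisotropic scaling. -/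
lemma vol_eq_lmarginal_inner {S : Finset ι} {a : ι} (ha : a ∈ S) {X : Set (ι → ℝ)}
    (hX : MeasurableSet X) :
    vol S X = lmarginal (fun _ => (volume : Measure ℝ)) (S.erase a)
      (fun x => ∫⁻ t : ℝ, X.indicator 1 (update x a t)) 0 := by
  have hm : Measurable (X.indicator (1 : (ι → ℝ) → ℝ≥0∞)) := measurable_one.indicator hX
  rw [vol_eq_lmarginal _ hX]
  conv_lhs => rw [← Finset.insert_erase ha]
  rw [lmarginal_insert' _ hm (Finset.notMem_erase a S)]

/-- shears preserve volume -/
def shear (a b : ι) (t : ℝ) (x : ι → ℝ) : ι → ℝ := update x a (x a + t * x b)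

lemma continuous_shear (a b : ι) (t : ℝ) : Continuous (shear a b t) := by
  unfold shear
  exact continuous_id.update a ((continuous_apply a).add (continuous_const.mul (continuous_apply b)))

lemma vol_shear {S : Finset ι} {a b : ι} (ha : a ∈ S) (hab : a ≠ b) (t : ℝ) {X : Set (ι → ℝ)}
    (hX : MeasurableSet X) : vol S (shear a b t ⁻¹' X) = vol S X := by
  have hX' : MeasurableSet (shear a b t ⁻¹' X) := (continuous_shear a b t).measurable hX
  rw [vol_eq_lmarginal_inner ha hX', vol_eq_lmarginal_inner ha hX]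
  congr 1
  ext x
  have hsh : ∀ s : ℝ, shear a b t (update x a s) = update x a (s + t * x b) := by
    intro s
    unfold shear
    simp [update_of_ne hab.symm]
  have hg : Measurable (fun s : ℝ => X.indicator (1 : (ι → ℝ) → ℝ≥0∞) (update x a s)) :=
    (measurable_one.indicator hX).comp (measurable_update x)
  calc ∫⁻ s : ℝ, (shear a b t ⁻¹' X).indicator 1 (update x a s)
      = ∫⁻ s : ℝ, X.indicator 1 (update x a (s + t * x b)) := by
        refine lintegral_congr fun s => ?_
        refine indicator_one_congr ?_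
        rw [mem_preimage, hsh]
    _ = ∫⁻ s : ℝ, X.indicator 1 (update x a s) :=
        lintegral_add_right_eq_self (fun s : ℝ => X.indicator (1 : (ι → ℝ) → ℝ≥0∞) (update x a s)) _


lemma lintegral_one_sub_pow (n : ℕ) :
    ∫⁻ s in Ioo (0:ℝ) 1, ENNReal.ofReal ((1 - s) ^ n) = ENNReal.ofReal (1 / ((n:ℝ) + 1)) := by
  have hi : IntegrableOn (fun s : ℝ => (1 - s) ^ n) (Ioo (0:ℝ) 1) := by
    apply Continuous.integrableOn_Ioc (a := 0) (b := 1) (by fun_prop) |>.mono_set Ioo_subset_Ioc_self
  rw [← ofReal_integral_eq_lintegral_ofReal hi]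
  · congr 1
    rw [← integral_Ioc_eq_integral_Ioo, ← intervalIntegral.integral_of_le zero_le_one]
    rw [intervalIntegral.integral_comp_sub_left (fun x : ℝ => x ^ n) 1]
    rw [integral_pow]
    simp
  · filter_upwards [ae_restrict_mem measurableSet_Ioo] with s hs
    have : 0 ≤ 1 - s := by linarith [hs.2]
    exact pow_nonneg this n

lemma lintegral_comp_div {F : ℝ → ℝ≥0∞} (hF : Measurable F) {h : ℝ} (hh : h ≠ 0) :
    ∫⁻ t : ℝ, F (t / h) = ENNReal.ofReal |h| * ∫⁻ s : ℝ, F s := by
  have hm : Measurable (fun t : ℝ => h⁻¹ * t) := by fun_prop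
  have h1 : ∫⁻ t : ℝ, F (h⁻¹ * t) = ∫⁻ s : ℝ, F s ∂(Measure.map (fun t : ℝ => h⁻¹ * t) volume) :=
    (lintegral_map hF hm).symm
  have h2 := Real.map_volume_mul_left (inv_ne_zero hh)
  simp only [div_eq_inv_mul]
  rw [h1, h2, lintegral_smul_measure, inv_inv]
  rfl

lemma volume_preimage_homothety (S : Finset ι) {s : ℝ} (hs : 0 < s) (u : S → ℝ)
    {A : Set (S → ℝ)} :
    volume {y : S → ℝ | s • (y - u) ∈ A} = ENNReal.ofReal ((s⁻¹) ^ S.card) * volume A := by
  have h0 : {y : S → ℝ | s • (y - u) ∈ A} =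
      (fun y : S → ℝ => y + (-u)) ⁻¹' ((fun y : S → ℝ => s • y) ⁻¹' A) := by
    ext y; simp [sub_eq_add_neg]
  rw [h0, measure_preimage_add_right, Measure.addHaar_preimage_smul _ hs.ne']
  congr 2
  rw [Module.finrank_fintype_fun_eq_card, Fintype.card_coe, abs_of_pos (inv_pos.2 (pow_pos hs _)),
    inv_pow]

/-- Open pyramid over `B` (in the hyperplane `x c = 0`) with apex `z`. -/
def Pyr (c : ι) (z : ι → ℝ) (B : Set (ι → ℝ)) : Set (ι → ℝ) :=
  {x | 0 < x c / z c ∧ x c / z c < 1 ∧ (1 - x c / z c)⁻¹ • (x - (x c / z c) • z) ∈ B}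

lemma measurableSet_Pyr (c : ι) (z : ι → ℝ) {B : Set (ι → ℝ)} (hB : MeasurableSet B) :
    MeasurableSet (Pyr c z B) := by
  have hf : Measurable (fun x : ι → ℝ => x c / z c) := by fun_prop
  have hg : Measurable (fun x : ι → ℝ => (1 - x c / z c)⁻¹ • (x - (x c / z c) • z)) := by
    exact Measurable.smul (f := fun x : ι → ℝ => (1 - x c / z c)⁻¹)
      (g := fun x : ι → ℝ => x - (x c / z c) • z) ((measurable_const.sub hf).inv)
      (measurable_id.sub (hf.smul_const z))
  exact (measurableSet_lt measurable_const hf).inter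
    ((measurableSet_lt hf measurable_const).inter (hg hB))

lemma Pyr_repr {c : ι} {z : ι → ℝ} {B : Set (ι → ℝ)} {x : ι → ℝ} (hx : x ∈ Pyr c z B) :
    ∃ l : ℝ, 0 < l ∧ l < 1 ∧ ∃ y ∈ B, x = (1 - l) • y + l • z := by
  obtain ⟨h0, h1, hB⟩ := hx
  refine ⟨x c / z c, h0, h1, _, hB, ?_⟩
  have hne : (1 - x c / z c) ≠ 0 := by linarith
  rw [smul_smul, mul_inv_cancel₀ hne, one_smul]
  abel

/-- The slice of a pyramid. -/
lemma vol_slice_Pyr {S : Finset ι} {c : ι} (hc : c ∉ S) {z : ι → ℝ}
    (hz : ∀ d, d ∉ insert c S → z d = 0) (hzc : z c ≠ 0) (B : Set (ι → ℝ)) (t : ℝ) :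
    vol S {x | update x c t ∈ Pyr c z B} =
      (Ioo (0:ℝ) 1).indicator (fun s => ENNReal.ofReal ((1 - s) ^ S.card)) (t / z c) * vol S B := by
  by_cases ht : t / z c ∈ Ioo (0:ℝ) 1
  · rw [indicator_of_mem ht]
    set l := t / z c with hl
    have hl1 : 0 < 1 - l := by linarith [ht.2]
    have htl : t = l * z c := by rw [hl]; field_simp
    unfold vol
    let u : S → ℝ := fun d => l * z d
    have hset : (fun y : S → ℝ => updateFinset (0 : ι → ℝ) S y) ⁻¹' {x | update x c t ∈ Pyr c z B} =
        {y : S → ℝ | (1 - l)⁻¹ • (y - u) ∈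
          (fun y : S → ℝ => updateFinset (0 : ι → ℝ) S y) ⁻¹' B} := by
      ext y
      simp only [mem_preimage, mem_ofPred_eq, Pyr, update_self]
      rw [← hl]
      have hv : (1 - l)⁻¹ • (update (updateFinset (0 : ι → ℝ) S y) c t - l • z) =
          updateFinset (0 : ι → ℝ) S ((1 - l)⁻¹ • (y - u)) := by
        ext d
        by_cases hd : d = c
        · subst hd
          simp [updateFinset, hc, htl]
        · by_cases hdS : d ∈ S
          · simp [updateFinset, hdS, hd, u]
          · have : z d = 0 := hz d (by simp [hd, hdS])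
            simp [updateFinset, hdS, hd, this]
      rw [hv]
      constructor
      · intro h; exact h.2.2
      · intro h; exact ⟨ht.1, ht.2, h⟩
    rw [hset, volume_preimage_homothety S (inv_pos.2 hl1), inv_inv]
  · rw [indicator_of_notMem ht, zero_mul]
    have : {x | update x c t ∈ Pyr c z B} = ∅ := by
      ext x
      simp only [mem_ofPred_eq, Pyr, update_self, mem_empty_iff_false, iff_false]
      rintro ⟨h1, h2, -⟩
      exact ht ⟨h1, h2⟩
    rw [this]
    simp [vol]

/-- Volume of a pyramid. -/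
lemma vol_Pyr {S : Finset ι} {c : ι} (hc : c ∉ S) {z : ι → ℝ}
    (hz : ∀ d, d ∉ insert c S → z d = 0) (hzc : z c ≠ 0) {B : Set (ι → ℝ)}
    (hB : MeasurableSet B) :
    ((S.card + 1 : ℕ) : ℝ≥0∞) * vol (insert c S) (Pyr c z B) = ENNReal.ofReal |z c| * vol S B := by
  rw [vol_insert hc (measurableSet_Pyr c z hB)]
  simp_rw [vol_slice_Pyr hc hz hzc B]
  have hF : Measurable ((Ioo (0:ℝ) 1).indicator (fun s => ENNReal.ofReal ((1 - s) ^ S.card))) := by
    apply Measurable.indicator _ measurableSet_Ioo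
    fun_prop
  have hF2 : Measurable (fun t : ℝ => (Ioo (0:ℝ) 1).indicator
      (fun s => ENNReal.ofReal ((1 - s) ^ S.card)) (t / z c)) := hF.comp (by fun_prop)
  rw [lintegral_mul_const _ hF2]
  rw [lintegral_comp_div hF hzc, lintegral_indicator measurableSet_Ioo, lintegral_one_sub_pow]
  have hn : ((S.card + 1 : ℕ) : ℝ≥0∞) * ENNReal.ofReal (1 / ((S.card:ℝ) + 1)) = 1 := by
    rw [← ENNReal.ofReal_natCast, ← ENNReal.ofReal_mul (by positivity)]
    push_cast
    rw [mul_one_div_cancel (by positivity)]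
    simp
  calc ((S.card + 1 : ℕ) : ℝ≥0∞) * (ENNReal.ofReal |z c| * ENNReal.ofReal (1 / ((S.card:ℝ) + 1)) * vol S B)
      = (((S.card + 1 : ℕ) : ℝ≥0∞) * ENNReal.ofReal (1 / ((S.card:ℝ) + 1))) * (ENNReal.ofReal |z c| * vol S B) := by ring
    _ = ENNReal.ofReal |z c| * vol S B := by rw [hn, one_mul]


/-- Scaling of one coordinate. -/
def scaleAt (a : ι) (r : ℝ) (x : ι → ℝ) : ι → ℝ := update x a (r * x a)

lemma continuous_scaleAt (a : ι) (r : ℝ) : Continuous (scaleAt a r) := by
  unfold scaleAt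
  exact continuous_id.update a (continuous_const.mul (continuous_apply a))

lemma vol_scaleAt {S : Finset ι} {a : ι} (ha : a ∈ S) {r : ℝ} (hr : 0 < r) {X : Set (ι → ℝ)}
    (hX : MeasurableSet X) :
    ENNReal.ofReal r * vol S (scaleAt a r ⁻¹' X) = vol S X := by
  have hX' : MeasurableSet (scaleAt a r ⁻¹' X) := (continuous_scaleAt a r).measurable hX
  have key : ∀ x : ι → ℝ, ENNReal.ofReal r *
        ∫⁻ s : ℝ, (scaleAt a r ⁻¹' X).indicator 1 (update x a s)
      = ∫⁻ s : ℝ, X.indicator 1 (update x a s) := by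
    intro x
    have hg : Measurable (fun s : ℝ => X.indicator (1 : (ι → ℝ) → ℝ≥0∞) (update x a s)) :=
      (measurable_one.indicator hX).comp (measurable_update x)
    have h1 : ∫⁻ s : ℝ, (scaleAt a r ⁻¹' X).indicator 1 (update x a s)
        = ∫⁻ s : ℝ, X.indicator (1 : (ι → ℝ) → ℝ≥0∞) (update x a (s / r⁻¹)) := by
      refine lintegral_congr fun s => ?_
      refine indicator_one_congr ?_
      have : scaleAt a r (update x a s) = update x a (s / r⁻¹) := by
        unfold scaleAt
        simp [div_inv_eq_mul, mul_comm]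
      rw [mem_preimage, this]
    rw [h1, lintegral_comp_div hg (inv_ne_zero hr.ne'), ← mul_assoc, ← ENNReal.ofReal_mul hr.le,
      abs_of_pos (inv_pos.2 hr), mul_inv_cancel₀ hr.ne']
    simp
  rw [vol_eq_lmarginal_inner ha hX', vol_eq_lmarginal_inner ha hX]
  simp_rw [← key]
  unfold lmarginal
  rw [← lintegral_const_mul']
  · exact ENNReal.ofReal_ne_top

/-- Rotation in the coordinate plane `(a, b)`. -/
def rot2 (a b : ι) (θ : ℝ) (x : ι → ℝ) : ι → ℝ :=
  update (update x a (Real.cos θ * x a - Real.sin θ * x b)) b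
    (Real.sin θ * x a + Real.cos θ * x b)

lemma rot2_fst {a b : ι} (hab : a ≠ b) (θ : ℝ) (x : ι → ℝ) :
    rot2 a b θ x a = Real.cos θ * x a - Real.sin θ * x b := by
  simp [rot2, update_of_ne hab]

lemma rot2_snd (a b : ι) (θ : ℝ) (x : ι → ℝ) :
    rot2 a b θ x b = Real.sin θ * x a + Real.cos θ * x b := by
  simp [rot2]

lemma rot2_other {a b d : ι} (hda : d ≠ a) (hdb : d ≠ b) (θ : ℝ) (x : ι → ℝ) :
    rot2 a b θ x d = x d := by
  simp [rot2, update_of_ne hda, update_of_ne hdb]

lemma continuous_rot2 (a b : ι) (θ : ℝ) : Continuous (rot2 a b θ) := by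
  unfold rot2
  refine Continuous.update (Continuous.update continuous_id a ?_) b ?_ <;> fun_prop

lemma rot2_add {a b : ι} (hab : a ≠ b) (θ φ : ℝ) (x : ι → ℝ) :
    rot2 a b θ (rot2 a b φ x) = rot2 a b (θ + φ) x := by
  ext d
  by_cases hda : d = a
  · subst hda
    rw [rot2_fst hab, rot2_fst hab, rot2_fst hab, rot2_snd, Real.cos_add, Real.sin_add]
    ring
  · by_cases hdb : d = b
    · subst hdb
      rw [rot2_snd, rot2_snd, rot2_fst hab, rot2_snd, Real.cos_add, Real.sin_add]
      ring
    · rw [rot2_other hda hdb, rot2_other hda hdb, rot2_other hda hdb]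

lemma rot2_zero {a b : ι} (hab : a ≠ b) (x : ι → ℝ) : rot2 a b 0 x = x := by
  ext d
  by_cases hda : d = a
  · subst hda
    rw [rot2_fst hab]; simp
  · by_cases hdb : d = b
    · subst hdb
      rw [rot2_snd]; simp
    · rw [rot2_other hda hdb]

lemma rot2_eq_shears {a b : ι} (hab : a ≠ b) {θ : ℝ} (hθ : 1 + Real.cos θ ≠ 0) (x : ι → ℝ) :
    rot2 a b θ x = shear a b (-(Real.sin θ / (1 + Real.cos θ)))
      (shear b a (Real.sin θ) (shear a b (-(Real.sin θ / (1 + Real.cos θ))) x)) := by
  have hs2 : Real.sin θ ^ 2 = (1 - Real.cos θ) * (1 + Real.cos θ) := by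
    have := Real.sin_sq_add_cos_sq θ
    nlinarith
  ext d
  unfold shear
  by_cases hda : d = a
  · subst hda
    rw [rot2_fst hab]
    simp [update_of_ne hab, update_of_ne hab.symm]
    field_simp
    linear_combination ((1 + Real.cos θ) * x d - Real.sin θ * x b) * hs2
  · by_cases hdb : d = b
    · subst hdb
      rw [rot2_snd]
      simp [update_of_ne hab, update_of_ne hab.symm]
      field_simp
      linear_combination (x d) * hs2
    · rw [rot2_other hda hdb]
      simp [update_of_ne hda, update_of_ne hdb]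

lemma vol_rot2 {S : Finset ι} {a b : ι} (ha : a ∈ S) (hb : b ∈ S) (hab : a ≠ b) {θ : ℝ}
    (hθ : 1 + Real.cos θ ≠ 0) {X : Set (ι → ℝ)} (hX : MeasurableSet X) :
    vol S (rot2 a b θ ⁻¹' X) = vol S X := by
  set T := -(Real.sin θ / (1 + Real.cos θ)) with hT
  have h : rot2 a b θ ⁻¹' X =
      shear a b T ⁻¹' (shear b a (Real.sin θ) ⁻¹' (shear a b T ⁻¹' X)) := by
    ext x
    simp only [mem_preimage]
    rw [rot2_eq_shears hab hθ]
  have h1 : MeasurableSet (shear a b T ⁻¹' X) := (continuous_shear a b T).measurable hX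
  have h2 : MeasurableSet (shear b a (Real.sin θ) ⁻¹' (shear a b T ⁻¹' X)) :=
    (continuous_shear b a _).measurable h1
  rw [h, vol_shear ha hab _ h2, vol_shear hb hab.symm _ h1, vol_shear ha hab _ hX]

/-- Euclidean pairing. -/
def dot (x y : ι → ℝ) : ℝ := ∑ c, x c * y c

lemma dot_comm (x y : ι → ℝ) : dot x y = dot y x := by
  unfold dot
  exact Finset.sum_congr rfl fun c _ => mul_comm _ _

lemma dot_update_left (x y : ι → ℝ) (c : ι) (t : ℝ) :
    dot (update x c t) y = dot x y + (t - x c) * y c := by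
  unfold dot
  rw [← Finset.add_sum_erase _ _ (Finset.mem_univ c), ← Finset.add_sum_erase (a := c) Finset.univ
    (fun d => x d * y d) (Finset.mem_univ c)]
  have : ∑ d ∈ Finset.univ.erase c, update x c t d * y d = ∑ d ∈ Finset.univ.erase c, x d * y d := by
    refine Finset.sum_congr rfl fun d hd => ?_
    rw [update_of_ne (Finset.ne_of_mem_erase hd)]
  rw [this, update_self]
  ring

lemma dot_rot2_left {a b : ι} (hab : a ≠ b) (θ : ℝ) (x y : ι → ℝ) :
    dot (rot2 a b θ x) y = dot x y
      + (Real.cos θ * x a - Real.sin θ * x b - x a) * y a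
      + (Real.sin θ * x a + Real.cos θ * x b - x b) * y b := by
  unfold rot2
  rw [dot_update_left, dot_update_left, update_of_ne hab.symm]

lemma dot_rot2 {a b : ι} (hab : a ≠ b) (θ : ℝ) (x y : ι → ℝ) :
    dot (rot2 a b θ x) y = dot x (rot2 a b (-θ) y) := by
  rw [dot_rot2_left hab, dot_comm x (rot2 a b (-θ) y), dot_rot2_left hab, dot_comm y x,
    Real.cos_neg, Real.sin_neg]
  ring

lemma dot_add_left (x x' y : ι → ℝ) : dot (x + x') y = dot x y + dot x' y := by
  unfold dot
  rw [← Finset.sum_add_distrib]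
  exact Finset.sum_congr rfl fun c _ => by simp [add_mul]

lemma dot_smul_left (r : ℝ) (x y : ι → ℝ) : dot (r • x) y = r * dot x y := by
  unfold dot
  rw [Finset.mul_sum]
  exact Finset.sum_congr rfl fun c _ => by simp [mul_assoc]

lemma dot_add_right (x y y' : ι → ℝ) : dot x (y + y') = dot x y + dot x y' := by
  rw [dot_comm, dot_add_left, dot_comm y, dot_comm y']

lemma dot_smul_right (r : ℝ) (x y : ι → ℝ) : dot x (r • y) = r * dot x y := by
  rw [dot_comm, dot_smul_left, dot_comm]

lemma continuous_dot_right (x : ι → ℝ) : Continuous (fun y : ι → ℝ => dot x y) := by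
  unfold dot
  fun_prop

lemma continuous_dot_left (y : ι → ℝ) : Continuous (fun x : ι → ℝ => dot x y) := by
  unfold dot
  fun_prop

end Vale.Agent.Lib.P248
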